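import Vale.Agent.P338.Tau

/-! # P338: the overlaps of all nodes add up to at most the running time (modules CROSS, TREE)

CROSS: for a cell `c` of the overlap let `t` be the first time in the right interval
`[tau (a+s), tau (a+2s))` at which it is scanned and `t'` the last time in the left interval
`[tau a, tau (a+s))`. Then `t ∈ cross`; the map `c ↦ t` is injective as `c = head t`. Use
`tau_spec`, `tau_lt`, `run_inp_mono`, `tau_mono` for the positions of the input head (if the outputs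
are finished at `tau (a+s)` the right interval is empty).
TREE: for `t ∈ cross` of the node `(b * 2^(k+1), 2^k)` with witness `t'`, the input head positions
`p' = inp t'`, `p = inp t` satisfy `p' / 2^k = 2b`, `p / 2^k = 2b+1`; the witness `t'` is unique
(last visit before `t`), so `k` and `b` are determined: for `k < k2` we would have
`p / 2^(k+1) = b = p' / 2^(k+1)`, hence `p / 2^k2 = p' / 2^k2`. So the sets `cross` are disjoint
subsets of `range T`. -/

namespace Vale.Agent.P338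

variable {M : Machine} {w : Fin M.K → ℤ → Fin M.G} {n T x y : ℕ}

open Classical in
/-- times `t < T` in the right half with the previous visit of the scanned cell in the left half -/
noncomputable def cross (M : Machine) (w : Fin M.K → ℤ → Fin M.G) (T x y : ℕ) (i : Fin M.K)
    (a s : ℕ) : Finset ℕ :=
  (Finset.range T).filter fun t => a + s ≤ (M.run w x y t).inp ∧ (M.run w x y t).inp < a + 2 * s ∧
    ∃ t' < t, a ≤ (M.run w x y t').inp ∧ (M.run w x y t').inp < a + s ∧
      (M.run w x y t').head i = (M.run w x y t).head i ∧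
      ∀ t'', t' < t'' → t'' < t → (M.run w x y t'').head i ≠ (M.run w x y t).head i

/-- between `tau p` and `tau q` the input head is at least at `p` -/
theorem CROSS_inp (hf : n ≤ (M.run w x y T).outs.length) {p q t : ℕ}
    (h1 : tau M w n x y p ≤ t) (h2 : t < tau M w n x y q) :
    p ≤ (M.run w x y t).inp ∧ (M.run w x y t).inp < q := by
  have h3 := tau_lt h2
  refine ⟨?_, h3.1⟩
  rcases tau_spec hf p with h4 | h4
  · exact h4.trans (run_inp_mono h1)
  · have h5 := (run_outs_prefix (M := M) (w := w) (x := x) (y := y) h1).length_le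
    omega

/-- CROSS -/
theorem ov_card_le (hf : n ≤ (M.run w x y T).outs.length) (i : Fin M.K) (a s : ℕ) :
    (ov M w n x y i a s).card ≤ (cross M w T x y i a s).card := by
  classical
  have h : ov M w n x y i a s ⊆
      (cross M w T x y i a s).image fun t => (M.run w x y t).head i := by
    intro c hc
    unfold ov vis at hc
    rw [Finset.mem_inter, Finset.mem_image, Finset.mem_image] at hc
    obtain ⟨⟨t1, ht1, hc1⟩, ⟨t2, ht2, hc2⟩⟩ := hc
    rw [Finset.mem_Ico] at ht1 ht2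
    have hex : ∃ t, tau M w n x y (a + s) ≤ t ∧ t < tau M w n x y (a + 2 * s) ∧
        (M.run w x y t).head i = c := ⟨t2, ht2.1, ht2.2, hc2⟩
    obtain ⟨t, ht, hmin⟩ : ∃ t, (tau M w n x y (a + s) ≤ t ∧ t < tau M w n x y (a + 2 * s) ∧
        (M.run w x y t).head i = c) ∧ ∀ m < t, ¬ (tau M w n x y (a + s) ≤ m ∧
          m < tau M w n x y (a + 2 * s) ∧ (M.run w x y m).head i = c) :=
      ⟨Nat.find hex, Nat.find_spec hex, fun m hm => Nat.find_min hex hm⟩
    have hS : ((Finset.Ico (tau M w n x y a) (tau M w n x y (a + s))).filter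
        fun t => (M.run w x y t).head i = c).Nonempty :=
      ⟨t1, Finset.mem_filter.2 ⟨Finset.mem_Ico.2 ht1, hc1⟩⟩
    obtain ⟨t', ht', hmax⟩ : ∃ t', (tau M w n x y a ≤ t' ∧ t' < tau M w n x y (a + s) ∧
        (M.run w x y t').head i = c) ∧ ∀ m, tau M w n x y a ≤ m → m < tau M w n x y (a + s) →
          (M.run w x y m).head i = c → m ≤ t' := by
      have h4 := Finset.mem_filter.1 (Finset.max'_mem _ hS)
      exact ⟨Finset.max' _ hS, ⟨(Finset.mem_Ico.1 h4.1).1, (Finset.mem_Ico.1 h4.1).2, h4.2⟩,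
        fun m h1 h2 h3 => Finset.le_max' _ m
          (Finset.mem_filter.2 ⟨Finset.mem_Ico.2 ⟨h1, h2⟩, h3⟩)⟩
    refine Finset.mem_image.2 ⟨t, ?_, ht.2.2⟩
    have e1 := CROSS_inp hf ht.1 ht.2.1
    have e2 := CROSS_inp hf ht'.1 ht'.2.1
    unfold cross
    refine Finset.mem_filter.2 ⟨Finset.mem_range.2 (lt_of_lt_of_le ht.2.1 (tau_le hf _)), e1.1,
      e1.2, t', lt_of_lt_of_le ht'.2.1 ht.1, e2.1, e2.2, ht'.2.2.trans ht.2.2.symm, ?_⟩
    intro t'' h1 h2 h3
    rw [ht.2.2] at h3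
    rcases lt_or_ge t'' (tau M w n x y (a + s)) with h4 | h4
    · exact absurd (hmax t'' (ht'.1.trans h1.le) h4 h3) (not_le.2 h1)
    · exact hmin t'' h2 ⟨h4, h2.trans ht.2.1, h3⟩
  exact (Finset.card_le_card h).trans Finset.card_image_le

theorem TREE_aux {k b k2 b2 p p' : ℕ} (h1 : b * 2 ^ (k + 1) + 2 ^ k ≤ p)
    (h2 : p < b * 2 ^ (k + 1) + 2 * 2 ^ k) (h3 : b * 2 ^ (k + 1) ≤ p')
    (h4 : p' < b * 2 ^ (k + 1) + 2 ^ k) (g1 : b2 * 2 ^ (k2 + 1) + 2 ^ k2 ≤ p)
    (g3 : b2 * 2 ^ (k2 + 1) ≤ p')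
    (g4 : p' < b2 * 2 ^ (k2 + 1) + 2 ^ k2) (hk : k < k2) : False := by
  have e1 : p / 2 ^ (k + 1) = b := by
    refine Nat.div_eq_of_lt_le (by omega) ?_
    have : (b + 1) * 2 ^ (k + 1) = b * 2 ^ (k + 1) + 2 * 2 ^ k := by ring
    rw [this]
    exact h2
  have e2 : p' / 2 ^ (k + 1) = b := by
    refine Nat.div_eq_of_lt_le (by omega) ?_
    have : (b + 1) * 2 ^ (k + 1) = b * 2 ^ (k + 1) + 2 * 2 ^ k := by ring
    rw [this]
    omega
  obtain ⟨d, rfl⟩ : ∃ d, k2 = k + 1 + d := ⟨k2 - (k + 1), by omega⟩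
  have e3 : p / 2 ^ (k + 1 + d) = p' / 2 ^ (k + 1 + d) := by
    rw [pow_add, ← Nat.div_div_eq_div_mul, ← Nat.div_div_eq_div_mul, e1, e2]
  have e4 : p' < (2 * b2 + 1) * 2 ^ (k + 1 + d) := by
    have : (2 * b2 + 1) * 2 ^ (k + 1 + d) = b2 * 2 ^ (k + 1 + d + 1) + 2 ^ (k + 1 + d) := by ring
    omega
  have e5 : (2 * b2 + 1) * 2 ^ (k + 1 + d) ≤ p := by
    have : (2 * b2 + 1) * 2 ^ (k + 1 + d) = b2 * 2 ^ (k + 1 + d + 1) + 2 ^ (k + 1 + d) := by ring
    omega
  have e6 := (Nat.le_div_iff_mul_le (by positivity)).2 e5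
  have e7 := (Nat.div_lt_iff_lt_mul (by positivity)).2 e4
  omega

theorem TREE_disj (i : Fin M.K) {k b k2 b2 : ℕ} (hne : (k, b) ≠ (k2, b2)) :
    Disjoint (cross M w T x y i (b * 2 ^ (k + 1)) (2 ^ k))
      (cross M w T x y i (b2 * 2 ^ (k2 + 1)) (2 ^ k2)) := by
  classical
  rw [Finset.disjoint_left]
  intro t ht ht2
  simp only [cross, Finset.mem_filter] at ht ht2
  obtain ⟨-, h1, h2, t', htt', h3, h4, h5, h6⟩ := ht
  obtain ⟨-, g1, g2, s', hss', g3, g4, g5, g6⟩ := ht2
  have hts : t' = s' := by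
    rcases lt_trichotomy t' s' with h | h | h
    · exact absurd g5 (h6 s' h hss')
    · exact h
    · exact absurd h5 (g6 t' h htt')
  subst hts
  rcases lt_trichotomy k k2 with h | h | h
  · exact TREE_aux h1 h2 h3 h4 g1 g3 g4 h
  · subst h
    apply hne
    have e1 : (M.run w x y t).inp / 2 ^ (k + 1) = b := by
      refine Nat.div_eq_of_lt_le (by omega) ?_
      have : (b + 1) * 2 ^ (k + 1) = b * 2 ^ (k + 1) + 2 * 2 ^ k := by ring
      rw [this]
      exact h2
    have e2 : (M.run w x y t).inp / 2 ^ (k + 1) = b2 := by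
      refine Nat.div_eq_of_lt_le (by omega) ?_
      have : (b2 + 1) * 2 ^ (k + 1) = b2 * 2 ^ (k + 1) + 2 * 2 ^ k := by ring
      rw [this]
      exact g2
    rw [← e1, e2]
  · exact TREE_aux g1 g2 g3 g4 h1 h3 h4 h

/-- TREE -/
theorem sum_ov_le (hf : n ≤ (M.run w x y T).outs.length) (i : Fin M.K) (A : Finset (ℕ × ℕ)) :
    ∑ q ∈ A, (ov M w n x y i (q.2 * 2 ^ (q.1 + 1)) (2 ^ q.1)).card ≤ T := by
  classical
  calc ∑ q ∈ A, (ov M w n x y i (q.2 * 2 ^ (q.1 + 1)) (2 ^ q.1)).card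
      ≤ ∑ q ∈ A, (cross M w T x y i (q.2 * 2 ^ (q.1 + 1)) (2 ^ q.1)).card :=
        Finset.sum_le_sum fun q _ => ov_card_le hf i _ _
    _ = (A.biUnion fun q => cross M w T x y i (q.2 * 2 ^ (q.1 + 1)) (2 ^ q.1)).card := by
        rw [Finset.card_biUnion]
        rintro ⟨k, b⟩ _ ⟨k2, b2⟩ _ hne
        exact TREE_disj i hne
    _ ≤ (Finset.range T).card := by
        refine Finset.card_le_card ?_
        intro t ht
        rw [Finset.mem_biUnion] at ht
        obtain ⟨q, _, hq⟩ := ht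
        exact (Finset.mem_filter.1 hq).1
    _ = T := Finset.card_range T

end Vale.Agent.P338
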