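import Vale.Agent.P338.Count
import Vale.Agent.P338.Tree

/-! # P338: average over all inputs (modules NODE, AVG)

NODE: every `x < 2^n` is uniquely `P + 2^a u + 2^(a+s) W` with `P < 2^a`, `u < 2^s`,
`W < 2^(n-a-s)`; for fixed `P, W` at most half of the `u` have overlap `≤ m`. So at least half of
the `x` have overlap `≥ m + 1 ≥ m`.
AVG: sum NODE over the nodes `(k, b)`, exchange the sums, `sum_ov_le`. -/

namespace Vale.Agent.P338

variable {M : Machine} {w : Fin M.K → ℤ → Fin M.G} {n L T y : ℕ}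

theorem NODE_sum (f : ℕ → ℕ) (A B : ℕ) :
    ∑ x ∈ Finset.range (A * B), f x = ∑ q ∈ Finset.range B, ∑ r ∈ Finset.range A, f (r + A * q) := by
  induction B with
  | zero => simp
  | succ B ih =>
    rw [Nat.mul_succ, Finset.sum_range_add, ih, Finset.sum_range_succ]
    congr 1
    refine Finset.sum_congr rfl fun r _ => ?_
    rw [Nat.add_comm]

theorem NODE_avg {f : ℕ → ℕ} {N m : ℕ}
    (h : 2 * ((Finset.range N).filter (fun u => f u ≤ m)).card ≤ N) :
    N * m ≤ 2 * ∑ u ∈ Finset.range N, f u := by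
  have h1 : ((Finset.range N).filter (fun u => f u ≤ m)).card +
      ((Finset.range N).filter (fun u => ¬ f u ≤ m)).card = N := by
    rw [Finset.card_filter_add_card_filter_not, Finset.card_range]
  have h2 : ((Finset.range N).filter (fun u => ¬ f u ≤ m)).card * m ≤ ∑ u ∈ Finset.range N, f u := by
    calc ((Finset.range N).filter (fun u => ¬ f u ≤ m)).card * m
        ≤ ∑ u ∈ (Finset.range N).filter (fun u => ¬ f u ≤ m), f u := by
          rw [← smul_eq_mul]
          refine Finset.card_nsmul_le_sum _ _ _ fun u hu => ?_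
          have := (Finset.mem_filter.1 hu).2
          omega
      _ ≤ ∑ u ∈ Finset.range N, f u :=
          Finset.sum_le_sum_of_subset (Finset.filter_subset _ _)
  have h3 : N ≤ 2 * ((Finset.range N).filter (fun u => ¬ f u ≤ m)).card := by omega
  calc N * m ≤ 2 * ((Finset.range N).filter (fun u => ¬ f u ≤ m)).card * m :=
        Nat.mul_le_mul_right _ h3
    _ = 2 * (((Finset.range N).filter (fun u => ¬ f u ≤ m)).card * m) := by ring
    _ ≤ 2 * ∑ u ∈ Finset.range N, f u := Nat.mul_le_mul_left _ h2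

/-- NODE -/
theorem node_avg {a s m : ℕ} (has : a + 2 * s ≤ n)
    (h : ∀ P < 2 ^ a, ∀ W < 2 ^ (n - (a + s)),
      2 * ((Finset.range (2 ^ s)).filter (fun u => ∑ i,
        (ov M w n (P + 2 ^ a * u + 2 ^ (a + s) * W) y i a s).card ≤ m)).card ≤ 2 ^ s) :
    2 ^ n * m ≤ 2 * ∑ x ∈ Finset.range (2 ^ n), ∑ i, (ov M w n x y i a s).card := by
  obtain ⟨f, hf⟩ : ∃ f : ℕ → ℕ, f = fun x => ∑ i, (ov M w n x y i a s).card := ⟨_, rfl⟩
  have e0 : ∀ x, ∑ i, (ov M w n x y i a s).card = f x := fun x => by rw [hf]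
  simp only [e0] at h ⊢
  have e1 : 2 ^ n = 2 ^ (a + s) * 2 ^ (n - (a + s)) := by
    rw [← pow_add]
    congr 1
    omega
  have e2 : ∑ x ∈ Finset.range (2 ^ n), f x =
      ∑ W ∈ Finset.range (2 ^ (n - (a + s))), ∑ P ∈ Finset.range (2 ^ a),
        ∑ u ∈ Finset.range (2 ^ s), f (P + 2 ^ a * u + 2 ^ (a + s) * W) := by
    rw [e1, NODE_sum]
    refine Finset.sum_congr rfl fun W _ => ?_
    rw [pow_add, NODE_sum (fun r => f (r + 2 ^ a * 2 ^ s * W))]
    rw [Finset.sum_comm]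
  rw [e2, Finset.mul_sum]
  have e3 : 2 ^ n * m = ∑ W ∈ Finset.range (2 ^ (n - (a + s))), ∑ P ∈ Finset.range (2 ^ a),
      2 ^ s * m := by
    rw [Finset.sum_const, Finset.sum_const, Finset.card_range, Finset.card_range, smul_eq_mul,
      smul_eq_mul, e1, pow_add]
    ring
  rw [e3]
  refine Finset.sum_le_sum fun W hW => ?_
  rw [Finset.mul_sum]
  refine Finset.sum_le_sum fun P hP => ?_
  exact NODE_avg (h P (Finset.mem_range.1 hP) W (Finset.mem_range.1 hW))

/-- AVG -/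
theorem avg_bound (hf : ∀ x < 2 ^ n, n ≤ (M.run w x y T).outs.length) (A : Finset (ℕ × ℕ))
    (m : ℕ → ℕ)
    (h : ∀ q ∈ A, 2 ^ n * m q.1 ≤ 2 * ∑ x ∈ Finset.range (2 ^ n), ∑ i,
      (ov M w n x y i (q.2 * 2 ^ (q.1 + 1)) (2 ^ q.1)).card) :
    ∑ q ∈ A, m q.1 ≤ 2 * (M.K * T) := by
  have h1 : 2 ^ n * ∑ q ∈ A, m q.1 ≤ 2 ^ n * (2 * (M.K * T)) := by
    calc 2 ^ n * ∑ q ∈ A, m q.1 = ∑ q ∈ A, 2 ^ n * m q.1 := by rw [Finset.mul_sum]
      _ ≤ ∑ q ∈ A, 2 * ∑ x ∈ Finset.range (2 ^ n), ∑ i,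
          (ov M w n x y i (q.2 * 2 ^ (q.1 + 1)) (2 ^ q.1)).card := Finset.sum_le_sum h
      _ = 2 * ∑ x ∈ Finset.range (2 ^ n), ∑ i, ∑ q ∈ A,
          (ov M w n x y i (q.2 * 2 ^ (q.1 + 1)) (2 ^ q.1)).card := by
        rw [← Finset.mul_sum, Finset.sum_comm]
        congr 1
        refine Finset.sum_congr rfl fun x _ => ?_
        rw [Finset.sum_comm]
      _ ≤ 2 * ∑ x ∈ Finset.range (2 ^ n), ∑ _i : Fin M.K, T := by
        refine Nat.mul_le_mul_left 2 (Finset.sum_le_sum fun x hx => Finset.sum_le_sum fun i _ => ?_)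
        exact sum_ov_le (hf x (Finset.mem_range.1 hx)) i A
      _ = 2 ^ n * (2 * (M.K * T)) := by
        simp only [Finset.sum_const, Finset.card_univ, Fintype.card_fin, Finset.card_range,
          smul_eq_mul]
        ring
  exact Nat.le_of_mul_le_mul_left h1 (by positivity)

end Vale.Agent.P338
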