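import Vale.Agent.P338.Tau

/-! # P338: causality and lookahead (modules FLIP, CAUS)

FLIP: `x ^^^ 2^m = x + 2^m` or `x - 2^m`; `y` odd; so `x' * y ≡ x * y + 2^m (mod 2^(m+1))`.
`caus`: if more than `m` bits were output at time `tau m`, flip the digit `m` of `x`: by
`run_congr` (with `tau_lt`) the run up to `tau m` is unchanged, so the output bit `m` is the same,
but by FLIP the product bit `m` changes; contradiction with `Computes.correct`.
`look`: `tau_spec`; in the first case `run_inp_reach` and `Computes.online`, `run_outs_prefix`. -/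

namespace Vale.Agent.P338

private theorem flip_mod (x m : ℕ) : (x ^^^ 2 ^ m) % 2 ^ (m + 1) = (x + 2 ^ m) % 2 ^ (m + 1) := by
  apply Nat.eq_of_testBit_eq
  intro j
  rw [Nat.testBit_mod_two_pow, Nat.testBit_mod_two_pow]
  rcases lt_trichotomy j m with h | h | h
  · rw [Nat.testBit_xor, Nat.testBit_two_pow_of_ne (by omega), add_comm x,
      Nat.testBit_two_pow_add_gt h]
    simp
  · subst h
    rw [Nat.testBit_xor, Nat.testBit_two_pow_self, add_comm x, Nat.testBit_two_pow_add_eq]
    simp
  · have : ¬ j < m + 1 := by omega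
    simp [this]

private theorem flip_congr {a b m : ℕ} (h : a % 2 ^ (m + 1) = b % 2 ^ (m + 1)) :
    a.testBit m = b.testBit m := by
  have h1 := Nat.testBit_mod_two_pow a (m + 1) m
  have h2 := Nat.testBit_mod_two_pow b (m + 1) m
  rw [h, h2] at h1
  simpa using h1.symm

/-- FLIP -/
theorem flip_bit {x y m : ℕ} (hy : y.testBit 0 = true) :
    ((x ^^^ 2 ^ m) * y).testBit m = !(x * y).testBit m := by
  have hodd : y % 2 = 1 := by
    rw [Nat.testBit_zero] at hy
    simpa using hy
  obtain ⟨k, hk⟩ : ∃ k, y = 2 * k + 1 := ⟨y / 2, by omega⟩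
  have h1 : ((x ^^^ 2 ^ m) * y) % 2 ^ (m + 1) = ((x + 2 ^ m) * y) % 2 ^ (m + 1) := by
    rw [Nat.mul_mod, flip_mod, ← Nat.mul_mod]
  have h2 : ((x + 2 ^ m) * y) % 2 ^ (m + 1) = (2 ^ m + x * y) % 2 ^ (m + 1) := by
    have e : (x + 2 ^ m) * y = (2 ^ m + x * y) + 2 ^ (m + 1) * k := by
      have e1 : 2 ^ m * y = 2 ^ m * (2 * k + 1) := by rw [← hk]
      have e2 : (x + 2 ^ m) * y = x * y + 2 ^ m * y := by ring
      rw [e2, e1]
      ring
    rw [e, Nat.add_mul_mod_self_left]
  rw [flip_congr (h1.trans h2), Nat.testBit_two_pow_add_eq]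

variable {M : Machine} {w : Fin M.K → ℤ → Fin M.G} {n L T x y : ℕ}

/-- CAUS: product bit `m` is not output before digit `m` is seen -/
theorem caus (hC : ∀ x < 2 ^ n, Computes M w n L T x y) (hy : y.testBit 0 = true)
    (hx : x < 2 ^ n) {m : ℕ} (hm : m < n) :
    (M.run w x y (tau M w n x y m)).outs.length ≤ m := by
  by_contra hlt
  rw [not_le] at hlt
  have hx' : x ^^^ 2 ^ m < 2 ^ n :=
    Nat.xor_lt_two_pow hx (Nat.pow_lt_pow_right (by norm_num) hm)
  have hdig : ∀ j < m, x.testBit j = (x ^^^ 2 ^ m).testBit j := by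
    intro j hj
    rw [Nat.testBit_xor, Nat.testBit_two_pow_of_ne (by omega)]
    simp
  have hrun : M.run w (x ^^^ 2 ^ m) y (tau M w n x y m) = M.run w x y (tau M w n x y m) :=
    run_congr hdig fun t' ht' => (tau_lt ht').1
  have h1 := (hC x hx).correct (tau M w n x y m) m hm hlt
  have h2 := (hC _ hx').correct (tau M w n x y m) m hm (by rw [hrun]; exact hlt)
  rw [hrun, h1, flip_bit hy] at h2
  cases h : (x * y).testBit m <;> simp [h] at h2

/-- LOOK -/
theorem look (hC : Computes M w n L T x y) {m j : ℕ} (hj : j < n) (hjm : j + L ≤ m) :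
    j < (M.run w x y (tau M w n x y m)).outs.length := by
  rcases tau_spec hC.finish m with h | h
  · obtain ⟨t', h1, h2⟩ := run_inp_reach (hjm.trans h)
    exact lt_of_lt_of_le (hC.online t' j hj h2) (run_outs_prefix h1).length_le
  · exact hj.trans_le h

end Vale.Agent.P338
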