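import Vale.Agent.P338.Tau

/-! # P338: the set of cells scanned in a time interval is an interval (module IVL)

`vis_ordConn`: heads move by at most one cell per step (`run_head_step`), discrete intermediate
value theorem (induction on the later time). `ov_eq`: intersection of two such sets; take
`l = min'`, or `l = 0` if the overlap is empty; bounds from `run_head_le` and `tau_le`. -/

namespace Vale.Agent.P338

variable {M : Machine} {w : Fin M.K → ℤ → Fin M.G} {n T x y : ℕ}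

theorem IVL_up {f : ℕ → ℤ} (hf : ∀ k, |f (k + 1) - f k| ≤ 1) {s t : ℕ} {c : ℤ} (hst : s ≤ t)
    (h1 : f s ≤ c) (h2 : c ≤ f t) : ∃ k, s ≤ k ∧ k ≤ t ∧ f k = c := by
  induction t, hst using Nat.le_induction with
  | base => exact ⟨s, le_rfl, le_rfl, le_antisymm h1 h2⟩
  | succ t ht ih =>
    rcases le_or_gt c (f t) with h | h
    · obtain ⟨k, k1, k2, k3⟩ := ih h
      exact ⟨k, k1, k2.trans (Nat.le_succ t), k3⟩
    · have h3 := abs_le.1 (hf t)
      exact ⟨t + 1, ht.trans (Nat.le_succ t), le_rfl, by omega⟩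

theorem IVL_down {f : ℕ → ℤ} (hf : ∀ k, |f (k + 1) - f k| ≤ 1) {s t : ℕ} {c : ℤ} (hst : s ≤ t)
    (h1 : c ≤ f s) (h2 : f t ≤ c) : ∃ k, s ≤ k ∧ k ≤ t ∧ f k = c := by
  induction t, hst using Nat.le_induction with
  | base => exact ⟨s, le_rfl, le_rfl, le_antisymm h2 h1⟩
  | succ t ht ih =>
    rcases le_or_gt (f t) c with h | h
    · obtain ⟨k, k1, k2, k3⟩ := ih h
      exact ⟨k, k1, k2.trans (Nat.le_succ t), k3⟩
    · have h3 := abs_le.1 (hf t)
      exact ⟨t + 1, ht.trans (Nat.le_succ t), le_rfl, by omega⟩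

theorem vis_ordConn {i : Fin M.K} {t1 t2 : ℕ} {a b c : ℤ} (ha : a ∈ vis M w x y i t1 t2)
    (hb : b ∈ vis M w x y i t1 t2) (h1 : a ≤ c) (h2 : c ≤ b) : c ∈ vis M w x y i t1 t2 := by
  unfold vis at ha hb ⊢
  obtain ⟨ta, hta, rfl⟩ := Finset.mem_image.1 ha
  obtain ⟨tb, htb, rfl⟩ := Finset.mem_image.1 hb
  rw [Finset.mem_Ico] at hta htb
  obtain ⟨f, hfd⟩ : ∃ f : ℕ → ℤ, ∀ t, (M.run w x y t).head i = f t := ⟨_, fun _ => rfl⟩
  have hf : ∀ k, |f (k + 1) - f k| ≤ 1 := by
    intro k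
    have h := run_head_step (M := M) (w := w) (x := x) (y := y) k i
    rw [hfd, hfd] at h
    exact h
  rw [hfd] at h1 h2
  rcases le_total ta tb with h | h
  · obtain ⟨k, k1, k2, k3⟩ := IVL_up hf h h1 h2
    exact Finset.mem_image.2 ⟨k, Finset.mem_Ico.2 ⟨by omega, by omega⟩, (hfd k).trans k3⟩
  · obtain ⟨k, k1, k2, k3⟩ := IVL_down hf h h2 h1
    exact Finset.mem_image.2 ⟨k, Finset.mem_Ico.2 ⟨by omega, by omega⟩, (hfd k).trans k3⟩

theorem IVL_ico {S : Finset ℤ} (hS : ∀ a ∈ S, ∀ b ∈ S, ∀ c, a ≤ c → c ≤ b → c ∈ S)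
    (hne : S.Nonempty) : S = Finset.Ico (S.min' hne) (S.min' hne + S.card) := by
  have h1 : S = Finset.Icc (S.min' hne) (S.max' hne) := by
    ext c
    rw [Finset.mem_Icc]
    constructor
    · intro hc
      exact ⟨S.min'_le c hc, S.le_max' c hc⟩
    · rintro ⟨c1, c2⟩
      exact hS _ (S.min'_mem hne) _ (S.max'_mem hne) c c1 c2
  have h2 : S.min' hne ≤ S.max' hne := S.min'_le_max' hne
  have h3 : (S.card : ℤ) = S.max' hne + 1 - S.min' hne := by
    have h4 := congrArg Finset.card h1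
    rw [Int.card_Icc] at h4
    rw [h4]
    have h5 : 0 ≤ S.max' hne + 1 - S.min' hne := by omega
    exact Int.toNat_of_nonneg h5
  conv_lhs => rw [h1]
  rw [h3]
  ext c
  rw [Finset.mem_Icc, Finset.mem_Ico]
  constructor
  · rintro ⟨c1, c2⟩
    exact ⟨c1, by omega⟩
  · rintro ⟨c1, c2⟩
    exact ⟨c1, by omega⟩

theorem ov_eq (hf : n ≤ (M.run w x y T).outs.length) (i : Fin M.K) (a s : ℕ) :
    ∃ l : ℤ, |l| ≤ T ∧ ov M w n x y i a s = Finset.Ico l (l + (ov M w n x y i a s).card) := by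
  rcases (ov M w n x y i a s).eq_empty_or_nonempty with h | h
  · exact ⟨0, by simp, by rw [h]; simp⟩
  · refine ⟨(ov M w n x y i a s).min' h, ?_, IVL_ico ?_ h⟩
    · have hm := (ov M w n x y i a s).min'_mem h
      generalize (ov M w n x y i a s).min' h = l at hm
      unfold ov at hm
      have hm1 := (Finset.mem_inter.1 hm).1
      unfold vis at hm1
      obtain ⟨t, ht, rfl⟩ := Finset.mem_image.1 hm1
      have h1 := (Finset.mem_Ico.1 ht).2
      have h2 := tau_le hf (a + s)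
      have h3 := run_head_le (M := M) (w := w) (x := x) (y := y) t i
      refine h3.trans ?_
      exact_mod_cast (h1.le.trans h2)
    · intro b hb d hd c c1 c2
      unfold ov at hb hd ⊢
      rw [Finset.mem_inter] at hb hd ⊢
      exact ⟨vis_ordConn hb.1 hd.1 c1 c2, vis_ordConn hb.2 hd.2 c1 c2⟩

end Vale.Agent.P338
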