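import Vale.Agent.P338.Defs

/-! # P338: the product window determines the block up to `2^(L+1)` choices (modules WIN1, WIN2)

WIN1 `fiber_bound`. If `s < L + 1` then `card S ≤ 2^s ≤ 2^(L+1)`. Otherwise let
`C = (P + 2^(a+s) W) y / 2^a`, `y' = y % 2^s`. As `(y / 2^s) % 2^s = 1`, the number
`Z u = (P + 2^a u + 2^(a+s) W) y / 2^(a+s)` satisfies `Z u ≡ F u (mod 2^s)` with
`F u = (C + u y') / 2^s + u` (natural division). `F` is strictly increasing on `[0, 2^s)` and
`F (2^s - 1) - F 0 ≤ 2^(s+1)`. The hypothesis says that `Z u mod 2^(s-L+1)` is constant on `S`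
(bits `0, ..., s-L` of `Z u` are the bits `a+s, ..., a+2s-L` of the product). So `F` maps `S`
injectively into the elements of one residue class mod `2^(s-L+1)` in an interval of length
`2^(s+1)`: at most `2^L + 1 ≤ 2^(L+1)` elements.
WIN2: digits of `yy n`: `yy n` has the binary digits 1 exactly at the places `0, 1, 2, 4, 8, ...`
below `n`. -/

namespace Vale.Agent.P338

/-- WIN1 -/
theorem fiber_bound {a s L y P W : ℕ} (hP : P < 2 ^ a) (hy : y / 2 ^ s % 2 ^ s = 1)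
    (S : Finset ℕ) (hS : ∀ u ∈ S, u < 2 ^ s)
    (h : ∀ u ∈ S, ∀ v ∈ S, ∀ j, a + s ≤ j → j + L ≤ a + 2 * s →
      ((P + 2 ^ a * u + 2 ^ (a + s) * W) * y).testBit j =
        ((P + 2 ^ a * v + 2 ^ (a + s) * W) * y).testBit j) : S.card ≤ 2 ^ (L + 1) := by
  by_cases hsL : s ≤ L
  · have h1 : S ⊆ Finset.range (2 ^ s) := fun u hu => Finset.mem_range.2 (hS u hu)
    calc S.card ≤ (Finset.range (2 ^ s)).card := Finset.card_le_card h1
      _ = 2 ^ s := Finset.card_range _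
      _ ≤ 2 ^ (L + 1) := Nat.pow_le_pow_right (by norm_num) (by omega)
  · obtain ⟨r, hr⟩ : ∃ r, s = r + L := ⟨s - L, by omega⟩
    have hpos : 0 < 2 ^ s := by positivity
    obtain ⟨C, hC⟩ : ∃ C, (P + 2 ^ (a + s) * W) * y / 2 ^ a = C := ⟨_, rfl⟩
    obtain ⟨y', hy'⟩ : ∃ y', y % 2 ^ s = y' := ⟨_, rfl⟩
    have hy'lt : y' < 2 ^ s := by
      rw [← hy']
      exact Nat.mod_lt _ hpos
    have hZ : ∀ u, (P + 2 ^ a * u + 2 ^ (a + s) * W) * y / 2 ^ (a + s) =
        (C + u * y') / 2 ^ s + u * (y / 2 ^ s) := by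
      intro u
      have e0 : (2 : ℕ) ^ (a + s) = 2 ^ a * 2 ^ s := pow_add 2 a s
      have e1 : (P + 2 ^ a * u + 2 ^ (a + s) * W) * y =
          (P + 2 ^ (a + s) * W) * y + 2 ^ a * (u * y) := by ring
      have e2 : u * y = u * y' + 2 ^ s * (u * (y / 2 ^ s)) := by
        have := Nat.mod_add_div y (2 ^ s)
        rw [hy'] at this
        calc u * y = u * (y' + 2 ^ s * (y / 2 ^ s)) := by rw [this]
          _ = _ := by ring
      calc (P + 2 ^ a * u + 2 ^ (a + s) * W) * y / 2 ^ (a + s)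
          = ((P + 2 ^ (a + s) * W) * y + 2 ^ a * (u * y)) / 2 ^ a / 2 ^ s := by
            rw [e1, Nat.div_div_eq_div_mul, ← e0]
        _ = (C + u * y) / 2 ^ s := by
            rw [Nat.add_mul_div_left _ _ (by positivity), hC]
        _ = (C + u * y' + 2 ^ s * (u * (y / 2 ^ s))) / 2 ^ s := by
            conv_lhs => rw [e2, ← Nat.add_assoc]
        _ = _ := Nat.add_mul_div_left _ _ hpos
    obtain ⟨F, hF⟩ : ∃ F : ℕ → ℕ, ∀ u, F u = (C + u * y') / 2 ^ s + u := ⟨_, fun _ => rfl⟩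
    have hFm : StrictMono F := by
      intro u v huv
      rw [hF, hF]
      have h1 : (C + u * y') / 2 ^ s ≤ (C + v * y') / 2 ^ s :=
        Nat.div_le_div_right (Nat.add_le_add_left (Nat.mul_le_mul_right _ huv.le) _)
      omega
    have hmod : ∀ u, (P + 2 ^ a * u + 2 ^ (a + s) * W) * y / 2 ^ (a + s) ≡ F u [MOD 2 ^ r] := by
      intro u
      rw [hZ, hF]
      have h1 : y / 2 ^ s ≡ 1 [MOD 2 ^ s] := by
        show y / 2 ^ s % 2 ^ s = 1 % 2 ^ s
        rw [hy]
        refine (Nat.mod_eq_of_lt ?_).symm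
        by_contra hc
        have : (2 : ℕ) ^ s = 1 := by omega
        rw [this, Nat.mod_one] at hy
        exact absurd hy (by norm_num)
      have h2 : y / 2 ^ s ≡ 1 [MOD 2 ^ r] := by
        refine h1.of_dvd ?_
        rw [hr, pow_add]
        exact Nat.dvd_mul_right _ _
      have h3 := (h2.mul_left u).add_left ((C + u * y') / 2 ^ s)
      rw [mul_one] at h3
      exact h3
    have hSm : ∀ u ∈ S, ∀ v ∈ S, F u ≡ F v [MOD 2 ^ r] := by
      intro u hu v hv
      have h1 : (P + 2 ^ a * u + 2 ^ (a + s) * W) * y / 2 ^ (a + s) ≡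
          (P + 2 ^ a * v + 2 ^ (a + s) * W) * y / 2 ^ (a + s) [MOD 2 ^ r] := by
        refine Nat.eq_of_testBit_eq fun i => ?_
        rw [Nat.testBit_mod_two_pow, Nat.testBit_mod_two_pow, Nat.testBit_div_two_pow,
          Nat.testBit_div_two_pow]
        by_cases hi : i < r
        · have h2 := h u hu v hv (i + (a + s)) (by omega) (by omega)
          rw [h2]
        · simp [hi]
      exact ((hmod u).symm.trans h1).trans (hmod v)
    have hF0 : ∀ u, F 0 ≤ F u := fun u => hFm.monotone (Nat.zero_le u)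
    have hlt : ∀ u ∈ S, F u - F 0 < 2 ^ r * 2 ^ (L + 1) := by
      intro u hu
      have hu' := hS u hu
      have e3 : 2 ^ r * 2 ^ (L + 1) = 2 ^ s * 2 := by
        rw [hr]
        ring
      rw [e3, hF, hF, zero_mul, add_zero, add_zero]
      have h4 : u * y' ≤ (2 ^ s - 1) * 2 ^ s :=
        Nat.mul_le_mul (by omega) hy'lt.le
      have h5 : (C + u * y') / 2 ^ s ≤ C / 2 ^ s + (2 ^ s - 1) := by
        calc (C + u * y') / 2 ^ s ≤ (C + (2 ^ s - 1) * 2 ^ s) / 2 ^ s :=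
              Nat.div_le_div_right (Nat.add_le_add_left h4 _)
          _ = C / 2 ^ s + (2 ^ s - 1) := Nat.add_mul_div_right _ _ hpos
      omega
    refine (Finset.card_le_card_of_injOn (t := Finset.range (2 ^ (L + 1)))
      (fun u => (F u - F 0) / 2 ^ r) ?_ ?_).trans (Finset.card_range _).le
    · intro u hu
      rw [Finset.mem_coe, Finset.mem_range]
      exact Nat.div_lt_of_lt_mul (hlt u hu)
    · intro u hu v hv huv
      have hu' : u ∈ S := hu
      have hv' : v ∈ S := hv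
      have h6 := hSm u hu' v hv'
      have h7 : F u - F 0 ≡ F v - F 0 [MOD 2 ^ r] := by
        refine Nat.ModEq.add_right_cancel' (F 0) ?_
        rw [Nat.sub_add_cancel (hF0 u), Nat.sub_add_cancel (hF0 v)]
        exact h6
      have h8 : F u - F 0 = F v - F 0 := by
        have huv' : (F u - F 0) / 2 ^ r = (F v - F 0) / 2 ^ r := huv
        have h9 : (F u - F 0) % 2 ^ r = (F v - F 0) % 2 ^ r := h7
        rw [← Nat.mod_add_div (F u - F 0) (2 ^ r), ← Nat.mod_add_div (F v - F 0) (2 ^ r), huv', h9]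
      have h10 := hF0 u
      have h11 := hF0 v
      exact hFm.injective (by omega)

theorem WIN2_dvd {s : Finset ℕ} {k : ℕ} (h : ∀ i ∈ s, k ≤ i) :
    2 ^ 2 ^ k ∣ ∑ i ∈ s, 2 ^ 2 ^ i :=
  Finset.dvd_sum fun i hi => pow_dvd_pow 2 (Nat.pow_le_pow_right two_pos (h i hi))

theorem WIN2_small (k : ℕ) : 1 + ∑ i ∈ Finset.range k, 2 ^ 2 ^ i < 2 ^ 2 ^ k := by
  induction k with
  | zero => simp
  | succ k ih =>
    rw [Finset.sum_range_succ]
    have h1 : 2 ≤ 2 ^ 2 ^ k := by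
      have : 2 ^ 1 ≤ 2 ^ 2 ^ k := Nat.pow_le_pow_right two_pos (Nat.one_le_two_pow)
      simpa using this
    have h2 : 2 ^ 2 ^ (k + 1) = 2 ^ 2 ^ k * 2 ^ 2 ^ k := by
      rw [← pow_add]
      congr 1
      ring
    rw [h2]
    nlinarith

theorem yy_zero {n : ℕ} (hn : 1 ≤ n) : (yy n).testBit 0 = true := by
  unfold yy
  rw [Nat.testBit_mod_two_pow, Nat.testBit_zero]
  have h1 : 2 ∣ ∑ i ∈ Finset.range n, 2 ^ 2 ^ i := by
    have := WIN2_dvd (s := Finset.range n) (k := 0) fun i _ => Nat.zero_le i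
    simpa using this
  have h2 : (1 + ∑ i ∈ Finset.range n, 2 ^ 2 ^ i) % 2 = 1 := by omega
  rw [h2]
  have h3 : 0 < n := hn
  simp [h3]

theorem yy_window {n k : ℕ} (hk : 2 ^ (k + 1) ≤ n) : yy n / 2 ^ 2 ^ k % 2 ^ 2 ^ k = 1 := by
  have hkn : k + 1 ≤ n := (Nat.lt_two_pow_self).le.trans hk
  unfold yy
  rw [← Nat.mod_mul_right_div_self, Nat.mod_mod_of_dvd, Nat.mod_mul_right_div_self]
  · have hsplit : ∑ i ∈ Finset.range n, 2 ^ 2 ^ i =
        ∑ i ∈ Finset.range k, 2 ^ 2 ^ i + 2 ^ 2 ^ k + ∑ i ∈ Finset.Ico (k + 1) n, 2 ^ 2 ^ i := by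
      rw [← Finset.sum_range_succ, Finset.sum_range_add_sum_Ico _ hkn]
    obtain ⟨B, hB⟩ := WIN2_dvd (s := Finset.Ico (k + 1) n) (k := k + 1)
      fun i hi => (Finset.mem_Ico.1 hi).1
    have hsm := WIN2_small k
    have h2 : 2 ^ 2 ^ (k + 1) = 2 ^ 2 ^ k * 2 ^ 2 ^ k := by
      rw [← pow_add]
      congr 1
      ring
    have h1 : 2 ≤ 2 ^ 2 ^ k := by
      have : 2 ^ 1 ≤ 2 ^ 2 ^ k := Nat.pow_le_pow_right two_pos (Nat.one_le_two_pow)
      simpa using this
    rw [hsplit, hB, h2]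
    generalize 2 ^ 2 ^ k = N at *
    generalize ∑ i ∈ Finset.range k, 2 ^ 2 ^ i = S at *
    have e1 : 1 + (S + N + N * N * B) = (1 + S) + N * (1 + N * B) := by ring
    rw [e1, Nat.add_mul_div_left _ _ (by omega), Nat.div_eq_of_lt hsm, zero_add,
      Nat.add_mul_mod_self_left]
    exact Nat.mod_eq_of_lt (by omega)
  · rw [← pow_add]
    exact pow_dvd_pow 2 (by rw [← two_mul, ← pow_succ']; exact hk)

end Vale.Agent.P338
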