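import Vale.Agent.P338.Coup
import Vale.Agent.P338.Ivl
import Vale.Agent.P338.Win

/-! # P338: few inputs have a small overlap (module COUNT, helper41)

Map `u` (with total overlap at most `m`) to its key: the state, the number of outputs, the head
positions (all in `[-T, T]`, by `run_head_le`, `tau_le`), for each tape the left end `l` of the
overlap (`ov_eq`, `|l| ≤ T`) and its size (`≤ m`), and the contents `Fin m → Fin G` of the cells
`l, l+1, ..., l+m-1` at time `tau (a+s)`. Two inputs with the same key satisfy `SameKey`, hence by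
`coup` have the same product window; so by `fiber_bound` every fibre has at most `2^(L+1)`
elements: `Finset.card_le_mul_card_image`. The digits of `X u = P + 2^a u + 2^(a+s) W` below `a` and
from `a+s` on do not depend on `u` (`Nat.testBit_two_pow_mul_add` etc.). Number of keys:
`Fintype.card` of a product type. -/

namespace Vale.Agent.P338

private theorem COUNT_digits {P a s u v W j : ℕ} (hP : P < 2 ^ a) (hu : u < 2 ^ s) (hv : v < 2 ^ s)
    (hj : j < a ∨ a + s ≤ j) :
    (P + 2 ^ a * u + 2 ^ (a + s) * W).testBit j = (P + 2 ^ a * v + 2 ^ (a + s) * W).testBit j := by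
  have key : ∀ u < 2 ^ s, (P + 2 ^ a * u + 2 ^ (a + s) * W).testBit j =
      if j < a then P.testBit j else W.testBit (j - (a + s)) := by
    intro u hu
    have e1 : P + 2 ^ a * u + 2 ^ (a + s) * W = 2 ^ a * (2 ^ s * W + u) + P := by ring
    rw [e1, Nat.testBit_two_pow_mul_add _ hP]
    by_cases h : j < a
    · rw [if_pos h, if_pos h]
    · rw [if_neg h, if_neg h, Nat.testBit_two_pow_mul_add _ hu]
      have h2 : a + s ≤ j := by omega
      rw [if_neg (by omega)]
      congr 1
      omega
  rw [key u hu, key v hv]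

private theorem COUNT_lt {P a s u W n : ℕ} (hP : P < 2 ^ a) (hu : u < 2 ^ s)
    (hW : W < 2 ^ (n - (a + s))) (h : a + s ≤ n) : P + 2 ^ a * u + 2 ^ (a + s) * W < 2 ^ n := by
  have e1 : 2 ^ n = 2 ^ (a + s) * 2 ^ (n - (a + s)) := by
    rw [← pow_add]
    congr 1
    omega
  have e2 : 2 ^ (a + s) = 2 ^ a * 2 ^ s := pow_add _ _ _
  have h1 : P + 2 ^ a * u < 2 ^ (a + s) := by
    rw [e2]
    calc P + 2 ^ a * u < 2 ^ a + 2 ^ a * u := by omega
      _ = 2 ^ a * (u + 1) := by ring
      _ ≤ 2 ^ a * 2 ^ s := Nat.mul_le_mul_left _ hu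
  rw [e1]
  calc P + 2 ^ a * u + 2 ^ (a + s) * W < 2 ^ (a + s) + 2 ^ (a + s) * W := by omega
    _ = 2 ^ (a + s) * (W + 1) := by ring
    _ ≤ 2 ^ (a + s) * 2 ^ (n - (a + s)) := Nat.mul_le_mul_left _ hW

private def COUNT_enc (T : ℕ) (z : ℤ) : Fin (2 * T + 1) :=
  ⟨(z + T).toNat % (2 * T + 1), Nat.mod_lt _ (by omega)⟩

private theorem COUNT_enc_inj {T : ℕ} {z z' : ℤ} (h : |z| ≤ T) (h' : |z'| ≤ T)
    (he : COUNT_enc T z = COUNT_enc T z') : z = z' := by
  unfold COUNT_enc at he
  rw [Fin.mk.injEq] at he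
  rw [abs_le] at h h'
  rw [Nat.mod_eq_of_lt (by omega), Nat.mod_eq_of_lt (by omega)] at he
  omega

theorem count_small {M : Machine} {w : Fin M.K → ℤ → Fin M.G} {n L T y a s m P W : ℕ}
    (hC : ∀ x < 2 ^ n, Computes M w n L T x y) (hy : y.testBit 0 = true)
    (hys : y / 2 ^ s % 2 ^ s = 1) (has : a + 2 * s ≤ n) (hs : 0 < s) (hP : P < 2 ^ a)
    (hW : W < 2 ^ (n - (a + s))) :
    ((Finset.range (2 ^ s)).filter (fun u => ∑ i, (ov M w n (P + 2 ^ a * u + 2 ^ (a + s) * W) y i
      a s).card ≤ m)).card ≤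
    (M.Q * (n + 1) * (2 * T + 1) ^ M.K * (2 * T + 1) ^ M.K * (m + 1) ^ M.K * (M.G ^ m) ^ M.K) *
      2 ^ (L + 1) := by
  classical
  set X : ℕ → ℕ := fun u => P + 2 ^ a * u + 2 ^ (a + s) * W with hX
  have hXlt : ∀ u, u < 2 ^ s → X u < 2 ^ n := fun u hu => COUNT_lt hP hu hW (by omega)
  set U := (Finset.range (2 ^ s)).filter (fun u => ∑ i, (ov M w n (X u) y i a s).card ≤ m) with hU
  -- left ends
  have hl : ∀ u, ∃ l : Fin M.K → ℤ, u < 2 ^ s → ∀ i, |l i| ≤ T ∧
      ov M w n (X u) y i a s = Finset.Ico (l i) (l i + (ov M w n (X u) y i a s).card) := by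
    intro u
    by_cases hu : u < 2 ^ s
    · choose l hl using fun i => ov_eq (hC _ (hXlt u hu)).finish i a s
      exact ⟨l, fun _ => hl⟩
    · exact ⟨fun _ => 0, fun h => absurd h hu⟩
  choose l hl using hl
  let c : ℕ → Cfg M := fun u => M.run w (X u) y (tau M w n (X u) y (a + s))
  let key : ℕ → Fin M.Q × Fin (n + 1) × (Fin M.K → Fin (2 * T + 1)) ×
      (Fin M.K → Fin (2 * T + 1)) × (Fin M.K → Fin (m + 1)) × (Fin M.K → Fin m → Fin M.G) :=
    fun u => ((c u).state, Fin.ofNat (n + 1) (c u).outs.length,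
      (fun i => COUNT_enc T ((c u).head i)), (fun i => COUNT_enc T (l u i)),
      (fun i => Fin.ofNat (m + 1) (ov M w n (X u) y i a s).card),
      fun i r => (c u).tape i (l u i + ((r : ℕ) : ℤ)))
  have hcard : ∀ u ∈ U, ∀ i, (ov M w n (X u) y i a s).card ≤ m := by
    intro u hu i
    rw [hU, Finset.mem_filter] at hu
    refine le_trans ?_ hu.2
    exact Finset.single_le_sum (f := fun i => (ov M w n (X u) y i a s).card)
      (fun _ _ => Nat.zero_le _) (Finset.mem_univ i)
  have hUlt : ∀ u ∈ U, u < 2 ^ s := by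
    intro u hu
    rw [hU, Finset.mem_filter, Finset.mem_range] at hu
    exact hu.1
  have hlen : ∀ u ∈ U, (c u).outs.length ≤ n := by
    intro u hu
    have h1 := caus hC hy (hXlt u (hUlt u hu)) (m := a + s) (by omega)
    exact h1.trans (by omega)
  have hhead : ∀ u ∈ U, ∀ i, |(c u).head i| ≤ T := by
    intro u hu i
    have h1 := run_head_le (M := M) (w := w) (x := X u) (y := y) (tau M w n (X u) y (a + s)) i
    have h2 := tau_le (hC _ (hXlt u (hUlt u hu))).finish (a + s)
    refine h1.trans ?_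
    exact_mod_cast h2
  -- same key
  have hsame : ∀ u ∈ U, ∀ v ∈ U, key u = key v → SameKey M w n (X u) (X v) y a s := by
    intro u hu v hv h
    simp only [key, Prod.mk.injEq] at h
    obtain ⟨h1, h2, h3, h4, h5, h6⟩ := h
    have hcd : ∀ i, (ov M w n (X u) y i a s).card = (ov M w n (X v) y i a s).card := by
      intro i
      have h7 := congrArg Fin.val (congrFun h5 i)
      simp only [Fin.val_ofNat] at h7
      rw [Nat.mod_eq_of_lt (Nat.lt_succ_of_le (hcard u hu i)),
        Nat.mod_eq_of_lt (Nat.lt_succ_of_le (hcard v hv i))] at h7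
      exact h7
    have hll : ∀ i, l u i = l v i := fun i =>
      COUNT_enc_inj (hl u (hUlt u hu) i).1 (hl v (hUlt v hv) i).1 (congrFun h4 i)
    have hov : ∀ i, ov M w n (X u) y i a s = ov M w n (X v) y i a s := by
      intro i
      rw [(hl u (hUlt u hu) i).2, (hl v (hUlt v hv) i).2, hll i, hcd i]
    refine ⟨h1, ?_, ?_, hov, ?_⟩
    · have h7 := congrArg Fin.val h2
      simp only [Fin.val_ofNat] at h7
      rw [Nat.mod_eq_of_lt (Nat.lt_succ_of_le (hlen u hu)),
        Nat.mod_eq_of_lt (Nat.lt_succ_of_le (hlen v hv))] at h7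
      exact h7
    · funext i
      exact COUNT_enc_inj (hhead u hu i) (hhead v hv i) (congrFun h3 i)
    · intro i z hz
      have hz' := hz
      rw [(hl u (hUlt u hu) i).2, Finset.mem_Ico] at hz'
      have h8 := hcard u hu i
      have h9 := congrFun (congrFun h6 i) ⟨(z - l u i).toNat, by omega⟩
      have e1 : l u i + (((z - l u i).toNat : ℕ) : ℤ) = z := by omega
      have e2 : l v i + (((z - l u i).toNat : ℕ) : ℤ) = z := by
        rw [← hll i]
        exact e1
      simp only [e1, e2] at h9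
      exact h9
  -- counting
  have h1 := Finset.card_le_mul_card_image (f := key) U (2 ^ (L + 1)) (by
    intro κ _
    refine fiber_bound (a := a) (s := s) (y := y) (P := P) (W := W) hP hys _ ?_ ?_
    · intro u hu
      rw [Finset.mem_filter] at hu
      exact hUlt u hu.1
    · intro u hu v hv j hj1 hj2
      rw [Finset.mem_filter] at hu hv
      by_cases hjn : j < n
      · exact coup hC hy (hXlt u (hUlt u hu.1)) (hXlt v (hUlt v hv.1)) (by omega)
          (fun j hj => COUNT_digits hP (hUlt u hu.1) (hUlt v hv.1) (Or.inl hj))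
          (fun j hj => COUNT_digits hP (hUlt u hu.1) (hUlt v hv.1) (Or.inr hj))
          (hsame u hu.1 v hv.1 (hu.2.trans hv.2.symm)) hj1 hjn hj2
      · exfalso
        have hL0 : L = 0 := by omega
        subst hL0
        have h3 := caus hC hy (hXlt u (hUlt u hu.1)) (m := a + s) (by omega)
        have h4 := look (hC _ (hXlt u (hUlt u hu.1))) (m := a + s) (j := a + s) (by omega) (by omega)
        omega)
  refine h1.trans ?_
  rw [mul_comm]
  refine Nat.mul_le_mul_right _ ?_
  refine (Finset.card_le_univ _).trans (le_of_eq ?_)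
  simp only [Fintype.card_prod, Fintype.card_pi, Fintype.card_fin, Finset.prod_const,
    Finset.card_univ]
  ring

end Vale.Agent.P338
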