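import Vale.Agent.P338.Caus

/-! # P338: two inputs with the same transfer data give the same outputs (modules SYNC, COUP)

SYNC: induction on `r`. At `r = 0` the state, heads, output length agree by hypothesis and the
input heads by `tau_inp`. Tape contents at time `tau (a+s)` on a cell `c` of
`V1 ∩ V2` (`Vi` = cells scanned by run `i` in the right interval `[tau (a+s), tau (a+2s))`): if `c`
was scanned in the left interval by run 1, then `c` is in the overlap of run 1, hence of run 2, and
the contents agree by `hmem`; symmetric for run 2; if it was scanned in neither left interval, then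
by `tape_untouched` both contents are those at time `tau a`, where the configurations are equal
(`run_congr`, `tau_congr`; digits below `a` agree). Step: both heads scan a cell of `V1 ∩ V2`, the
digits read agree (the input head is in `[a+s, a+2s)` by `tau_lt`), so the actions are equal.
COUP: the lengths of the two right intervals are equal (else one run has stopped, `tau_spec`, and
the other not, `tau_lt`), and the outputs numbers `a+s, ..., a+2s-L` are written in the right
interval: `caus` at `m = a+s`, `look` at `m = a+2s`. -/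

namespace Vale.Agent.P338

variable {M : Machine} {w : Fin M.K → ℤ → Fin M.G} {n L T x1 x2 y a s : ℕ}

/-- equality of the transfer data of two inputs at the node `(a, s)` -/
structure SameKey (M : Machine) (w : Fin M.K → ℤ → Fin M.G) (n x1 x2 y a s : ℕ) : Prop where
  state : (M.run w x1 y (tau M w n x1 y (a + s))).state =
    (M.run w x2 y (tau M w n x2 y (a + s))).state
  len : (M.run w x1 y (tau M w n x1 y (a + s))).outs.length =
    (M.run w x2 y (tau M w n x2 y (a + s))).outs.length
  head : (M.run w x1 y (tau M w n x1 y (a + s))).head =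
    (M.run w x2 y (tau M w n x2 y (a + s))).head
  ovs : ∀ i, ov M w n x1 y i a s = ov M w n x2 y i a s
  mem : ∀ i, ∀ c ∈ ov M w n x1 y i a s,
    (M.run w x1 y (tau M w n x1 y (a + s))).tape i c =
      (M.run w x2 y (tau M w n x2 y (a + s))).tape i c

theorem SYNC_act {x x' y : ℕ} {c c' : Cfg M} (h1 : c.state = c'.state) (h2 : c.head = c'.head)
    (h3 : c.inp = c'.inp) (h4 : x.testBit c.inp = x'.testBit c.inp)
    (h5 : ∀ i, c.tape i (c.head i) = c'.tape i (c.head i)) : M.act x y c = M.act x' y c' := by
  unfold Machine.act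
  rw [← h1, ← h3, ← h2, h4]
  have h6 : (fun i => c.tape i (c.head i)) = fun i => c'.tape i (c.head i) := funext h5
  rw [h6]

/-- SYNC -/
theorem sync (hf1 : n ≤ (M.run w x1 y T).outs.length) (hf2 : n ≤ (M.run w x2 y T).outs.length)
    (hlo : ∀ j < a, x1.testBit j = x2.testBit j)
    (hhi : ∀ j, a + s ≤ j → x1.testBit j = x2.testBit j)
    (hl1 : (M.run w x1 y (tau M w n x1 y (a + s))).outs.length < n)
    (hk : SameKey M w n x1 x2 y a s) (r : ℕ)
    (h1 : tau M w n x1 y (a + s) + r ≤ tau M w n x1 y (a + 2 * s))
    (h2 : tau M w n x2 y (a + s) + r ≤ tau M w n x2 y (a + 2 * s)) :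
    (M.run w x1 y (tau M w n x1 y (a + s) + r)).state =
      (M.run w x2 y (tau M w n x2 y (a + s) + r)).state ∧
    (M.run w x1 y (tau M w n x1 y (a + s) + r)).head =
      (M.run w x2 y (tau M w n x2 y (a + s) + r)).head ∧
    (M.run w x1 y (tau M w n x1 y (a + s) + r)).inp =
      (M.run w x2 y (tau M w n x2 y (a + s) + r)).inp ∧
    (M.run w x1 y (tau M w n x1 y (a + s) + r)).outs.drop
        (M.run w x1 y (tau M w n x1 y (a + s))).outs.length =
      (M.run w x2 y (tau M w n x2 y (a + s) + r)).outs.drop
        (M.run w x2 y (tau M w n x2 y (a + s))).outs.length ∧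
    (∀ i, ∀ c ∈ vis M w x1 y i (tau M w n x1 y (a + s)) (tau M w n x1 y (a + 2 * s)) ∩
        vis M w x2 y i (tau M w n x2 y (a + s)) (tau M w n x2 y (a + 2 * s)),
      (M.run w x1 y (tau M w n x1 y (a + s) + r)).tape i c =
        (M.run w x2 y (tau M w n x2 y (a + s) + r)).tape i c) := by
  have hlen := hk.len
  have hi1 := tau_inp hf1 hl1
  have hi2 : (M.run w x2 y (tau M w n x2 y (a + s))).inp = a + s :=
    tau_inp hf2 (by rw [← hlen]; exact hl1)
  induction r with
  | zero =>
    refine ⟨hk.state, hk.head, hi1.trans hi2.symm, ?_, ?_⟩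
    · rw [Nat.add_zero, Nat.add_zero, List.drop_length, List.drop_length]
    · intro i c hc
      rw [Nat.add_zero, Nat.add_zero]
      rw [Finset.mem_inter] at hc
      by_cases hc1 : c ∈ vis M w x1 y i (tau M w n x1 y a) (tau M w n x1 y (a + s))
      · exact hk.mem i c (Finset.mem_inter.2 ⟨hc1, hc.1⟩)
      · by_cases hc2 : c ∈ vis M w x2 y i (tau M w n x2 y a) (tau M w n x2 y (a + s))
        · refine hk.mem i c ?_
          rw [hk.ovs i]
          exact Finset.mem_inter.2 ⟨hc2, hc.2⟩
        · rw [tape_untouched (tau_mono hf1 (Nat.le_add_right a s)) hc1,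
            tape_untouched (tau_mono hf2 (Nat.le_add_right a s)) hc2]
          have e1 : tau M w n x2 y a = tau M w n x1 y a := tau_congr hf1 hlo
          have e2 : M.run w x2 y (tau M w n x1 y a) = M.run w x1 y (tau M w n x1 y a) :=
            run_congr hlo fun t' ht' => (tau_lt ht').1
          rw [e1, e2]
  | succ r ih =>
    obtain ⟨i1, i2, i3, i4, i5⟩ := ih (by omega) (by omega)
    have ht1 := (tau_lt (M := M) (w := w) (n := n) (x := x1) (y := y) (p := a + 2 * s)
      (t := tau M w n x1 y (a + s) + r) (by omega)).1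
    have hm1 := run_inp_mono (M := M) (w := w) (x := x1) (y := y)
      (Nat.le_add_right (tau M w n x1 y (a + s)) r)
    rw [hi1] at hm1
    have hact : M.act x1 y (M.run w x1 y (tau M w n x1 y (a + s) + r)) =
        M.act x2 y (M.run w x2 y (tau M w n x2 y (a + s) + r)) := by
      refine SYNC_act i1 i2 i3 (hhi _ hm1) fun i => i5 i _ ?_
      rw [Finset.mem_inter]
      constructor
      · exact Finset.mem_image.2 ⟨_, Finset.mem_Ico.2 ⟨Nat.le_add_right _ r, by omega⟩, rfl⟩
      · rw [i2]
        exact Finset.mem_image.2 ⟨_, Finset.mem_Ico.2 ⟨Nat.le_add_right _ r, by omega⟩, rfl⟩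
    have p1 := (run_outs_prefix (M := M) (w := w) (x := x1) (y := y)
      (Nat.le_add_right (tau M w n x1 y (a + s)) r)).length_le
    have p2 := (run_outs_prefix (M := M) (w := w) (x := x2) (y := y)
      (Nat.le_add_right (tau M w n x2 y (a + s)) r)).length_le
    have r1 : M.run w x1 y (tau M w n x1 y (a + s) + (r + 1)) =
        M.step x1 y (M.run w x1 y (tau M w n x1 y (a + s) + r)) := rfl
    have r2 : M.run w x2 y (tau M w n x2 y (a + s) + (r + 1)) =
        M.step x2 y (M.run w x2 y (tau M w n x2 y (a + s) + r)) := rfl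
    rw [r1, r2]
    generalize M.run w x1 y (tau M w n x1 y (a + s) + r) = c1 at *
    generalize M.run w x2 y (tau M w n x2 y (a + s) + r) = c2 at *
    refine ⟨?_, ?_, ?_, ?_, ?_⟩
    · show (M.act x1 y c1).state = (M.act x2 y c2).state
      rw [hact]
    · show (fun i => c1.head i + (((M.act x1 y c1).move i : ℕ) : ℤ) - 1) =
        fun i => c2.head i + (((M.act x2 y c2).move i : ℕ) : ℤ) - 1
      rw [hact, i2]
    · show c1.inp + (if (M.act x1 y c1).adv then 1 else 0) =
        c2.inp + (if (M.act x2 y c2).adv then 1 else 0)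
      rw [hact, i3]
    · show (c1.outs ++ (M.act x1 y c1).out.toList).drop _ =
        (c2.outs ++ (M.act x2 y c2).out.toList).drop _
      rw [List.drop_append_of_le_length p1, List.drop_append_of_le_length p2, hact, i4]
    · intro i c hc
      show Function.update (c1.tape i) (c1.head i) ((M.act x1 y c1).write i) c =
        Function.update (c2.tape i) (c2.head i) ((M.act x2 y c2).write i) c
      rw [hact, ← i2]
      rcases eq_or_ne c (c1.head i) with e | e
      · rw [e, Function.update_self, Function.update_self]
      · rw [Function.update_of_ne e, Function.update_of_ne e]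
        exact i5 i c hc

private theorem COUP_getD {l : List Bool} {p j : ℕ} (h : p ≤ j) :
    l.getD j false = (l.drop p).getD (j - p) false := by
  rw [List.getD_eq_getElem?_getD, List.getD_eq_getElem?_getD, List.getElem?_drop,
    Nat.add_sub_cancel' h]

/-- COUP -/
theorem coup (hC : ∀ x < 2 ^ n, Computes M w n L T x y) (hy : y.testBit 0 = true)
    (hx1 : x1 < 2 ^ n) (hx2 : x2 < 2 ^ n) (has : a + s < n)
    (hlo : ∀ j < a, x1.testBit j = x2.testBit j)
    (hhi : ∀ j, a + s ≤ j → x1.testBit j = x2.testBit j)
    (hk : SameKey M w n x1 x2 y a s) {j : ℕ} (h1 : a + s ≤ j) (hj : j < n)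
    (h2 : j + L ≤ a + 2 * s) : (x1 * y).testBit j = (x2 * y).testBit j := by
  have C1 := hC x1 hx1
  have C2 := hC x2 hx2
  have hf1 := C1.finish
  have hf2 := C2.finish
  have hm1 : tau M w n x1 y (a + s) ≤ tau M w n x1 y (a + 2 * s) := tau_mono hf1 (by omega)
  have hm2 : tau M w n x2 y (a + s) ≤ tau M w n x2 y (a + 2 * s) := tau_mono hf2 (by omega)
  have hc1 := caus hC hy hx1 has
  have hl1 : (M.run w x1 y (tau M w n x1 y (a + s))).outs.length < n := by omega
  obtain ⟨d1, hd1⟩ := Nat.exists_eq_add_of_le hm1
  obtain ⟨d2, hd2⟩ := Nat.exists_eq_add_of_le hm2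
  have hlen := hk.len
  have key : ∀ r, r ≤ d1 → r ≤ d2 →
      (M.run w x1 y (tau M w n x1 y (a + s) + r)).inp =
        (M.run w x2 y (tau M w n x2 y (a + s) + r)).inp ∧
      (M.run w x1 y (tau M w n x1 y (a + s) + r)).outs.drop
          (M.run w x1 y (tau M w n x1 y (a + s))).outs.length =
        (M.run w x2 y (tau M w n x2 y (a + s) + r)).outs.drop
          (M.run w x2 y (tau M w n x2 y (a + s))).outs.length ∧
      (M.run w x1 y (tau M w n x1 y (a + s) + r)).outs.length =
        (M.run w x2 y (tau M w n x2 y (a + s) + r)).outs.length := by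
    intro r hr1 hr2
    have h := sync hf1 hf2 hlo hhi hl1 hk r (by omega) (by omega)
    refine ⟨h.2.2.1, h.2.2.2.1, ?_⟩
    have e := congrArg List.length h.2.2.2.1
    rw [List.length_drop, List.length_drop] at e
    have p1 := (run_outs_prefix (M := M) (w := w) (x := x1) (y := y)
      (Nat.le_add_right (tau M w n x1 y (a + s)) r)).length_le
    have p2 := (run_outs_prefix (M := M) (w := w) (x := x2) (y := y)
      (Nat.le_add_right (tau M w n x2 y (a + s)) r)).length_le
    omega
  have hdd : d1 = d2 := by
    rcases lt_trichotomy d1 d2 with h | h | h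
    · exfalso
      obtain ⟨k1, -, k3⟩ := key d1 le_rfl h.le
      have hs := tau_spec hf1 (a + 2 * s)
      rw [hd1] at hs
      have ht := tau_lt (M := M) (w := w) (n := n) (x := x2) (y := y) (p := a + 2 * s)
        (t := tau M w n x2 y (a + s) + d1) (by omega)
      omega
    · exact h
    · exfalso
      obtain ⟨k1, -, k3⟩ := key d2 h.le le_rfl
      have hs := tau_spec hf2 (a + 2 * s)
      rw [hd2] at hs
      have ht := tau_lt (M := M) (w := w) (n := n) (x := x1) (y := y) (p := a + 2 * s)
        (t := tau M w n x1 y (a + s) + d2) (by omega)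
      omega
  subst hdd
  obtain ⟨-, k2, -⟩ := key d1 le_rfl le_rfl
  have g1 := look C1 hj h2
  have g2 := look C2 hj h2
  rw [hd1] at g1
  rw [hd2] at g2
  have c1 := C1.correct (tau M w n x1 y (a + s) + d1) j hj g1
  have c2 := C2.correct (tau M w n x2 y (a + s) + d1) j hj g2
  rw [← c1, ← c2, COUP_getD (p := (M.run w x1 y (tau M w n x1 y (a + s))).outs.length) (by omega),
    COUP_getD (l := (M.run w x2 y (tau M w n x2 y (a + s) + d1)).outs)
      (p := (M.run w x2 y (tau M w n x2 y (a + s))).outs.length) (by omega), k2, hlen]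

end Vale.Agent.P338
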