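import Vale.Agent.P338.Model

/-!
# P338: auxiliary definitions
-/

namespace Vale.Agent.P338

/-- the number with binary digits `1` at the places `0` and `2^i` (`< n`) -/
def yy (n : ℕ) : ℕ := (1 + ∑ i ∈ Finset.range n, 2 ^ 2 ^ i) % 2 ^ n

open Classical in
/-- the first time at which the input head has reached `p`, or `n` bits have been output -/
noncomputable def tau (M : Machine) (w : Fin M.K → ℤ → Fin M.G) (n x y p : ℕ) : ℕ :=
  if h : ∃ t, p ≤ (M.run w x y t).inp ∨ n ≤ (M.run w x y t).outs.length then Nat.find h else 0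

/-- cells of the work tape `i` scanned at the times `t ∈ [t1, t2)` -/
noncomputable def vis (M : Machine) (w : Fin M.K → ℤ → Fin M.G) (x y : ℕ) (i : Fin M.K)
    (t1 t2 : ℕ) : Finset ℤ :=
  (Finset.Ico t1 t2).image fun t => (M.run w x y t).head i

/-- overlap of the tape `i` at the node `(a, s)` -/
noncomputable def ov (M : Machine) (w : Fin M.K → ℤ → Fin M.G) (n x y : ℕ) (i : Fin M.K)
    (a s : ℕ) : Finset ℤ :=
  vis M w x y i (tau M w n x y a) (tau M w n x y (a + s)) ∩
    vis M w x y i (tau M w n x y (a + s)) (tau M w n x y (a + 2 * s))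

end Vale.Agent.P338
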