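import Vale.Agent.P338.Defs

/-! # P338: numerical estimates (modules NUM1, NUM2, NUM3)

NUM1: `G ≤ 2^G`, `Q ≤ 2^Q`, `n + 1 ≤ 2^l`, `2T + 1 ≤ 2^(2l+1)`, `m + 1 ≤ 2^l`
with `l = Nat.log 2 n + 1`; `G m K ≤ s/4`. Sum of the exponents
`Q + l + 2K(2l+1) + K l + G m K + (L+1) + 1 ≤ s`.
NUM2: number of `b` with `(b+1) 2^(k+1) ≤ n` is `n / 2^(k+1) ≥ n / 2^(k+2)` (real), and
`2^k / D ≥ 2^k / (2D)`.
NUM3: `k1 = Nat.log 2 n - 1`, `k0 = Nat.clog 2 (max (4 L) (C (Nat.log 2 n + 1)))`; if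
`k0 > k1` then `log (n/L) ≤ const` (or `n` bounded), and `n ≤ T` suffices. -/

namespace Vale.Agent.P338

/-- NUM1 -/
theorem num_count {K Q G n L T m s : ℕ} (hn : 1 ≤ n) (hT : T ≤ n ^ 2) (hm : m ≤ s / (4 * (G * K + 1)))
    (hmn : m ≤ n) (hL : 4 * L ≤ s) (hs : 4 * (Q + 20 * K + 20) * (Nat.log 2 n + 1) ≤ s) :
    2 * ((Q * (n + 1) * (2 * T + 1) ^ K * (2 * T + 1) ^ K * (m + 1) ^ K * (G ^ m) ^ K) *
      2 ^ (L + 1)) ≤ 2 ^ s := by
  set l := Nat.log 2 n + 1 with hl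
  have hn1 : n + 1 ≤ 2 ^ l := Nat.lt_pow_succ_log_self (by norm_num) n
  have hm1 : m + 1 ≤ 2 ^ l := by omega
  have hQ : Q ≤ 2 ^ Q := Nat.lt_two_pow_self.le
  have hG : G ≤ 2 ^ G := Nat.lt_two_pow_self.le
  have hT1 : 2 * T + 1 ≤ 2 ^ (2 * l + 1) := by
    have h1 : n ^ 2 + 1 ≤ (2 ^ l) ^ 2 := by nlinarith
    calc 2 * T + 1 ≤ 2 * (n ^ 2 + 1) := by omega
      _ ≤ 2 * (2 ^ l) ^ 2 := Nat.mul_le_mul_left _ h1
      _ = 2 ^ (2 * l + 1) := by ring
  have hTK : (2 * T + 1) ^ K ≤ 2 ^ ((2 * l + 1) * K) := by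
    rw [pow_mul]
    exact Nat.pow_le_pow_left hT1 K
  have hmK : (m + 1) ^ K ≤ 2 ^ (l * K) := by
    rw [pow_mul]
    exact Nat.pow_le_pow_left hm1 K
  have hGK : (G ^ m) ^ K ≤ 2 ^ (G * m * K) := by
    rw [pow_mul, pow_mul]
    exact Nat.pow_le_pow_left (Nat.pow_le_pow_left hG m) K
  have hGm : 4 * (G * m * K) ≤ s := by
    have h1 : m * (4 * (G * K + 1)) ≤ s := (Nat.mul_le_mul_right _ hm).trans (Nat.div_mul_le_self _ _)
    calc 4 * (G * m * K) ≤ m * (4 * (G * K + 1)) := by nlinarith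
      _ ≤ s := h1
  have hl1 : 1 ≤ l := by omega
  have hexp : 1 + (Q + l + (2 * l + 1) * K + (2 * l + 1) * K + l * K + G * m * K + (L + 1)) ≤ s := by
    have h1 : 4 * (Q + l + (2 * l + 1) * K + (2 * l + 1) * K + l * K + 2) ≤
        4 * (Q + 20 * K + 20) * l := by
      have hQl : Q ≤ Q * l := Nat.le_mul_of_pos_right _ hl1
      have hKl : K ≤ K * l := Nat.le_mul_of_pos_right _ hl1
      nlinarith
    omega
  calc 2 * ((Q * (n + 1) * (2 * T + 1) ^ K * (2 * T + 1) ^ K * (m + 1) ^ K * (G ^ m) ^ K) *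
      2 ^ (L + 1))
      ≤ 2 * ((2 ^ Q * 2 ^ l * 2 ^ ((2 * l + 1) * K) * 2 ^ ((2 * l + 1) * K) * 2 ^ (l * K) *
        2 ^ (G * m * K)) * 2 ^ (L + 1)) := by gcongr
    _ = 2 ^ (1 + (Q + l + (2 * l + 1) * K + (2 * l + 1) * K + l * K + G * m * K + (L + 1))) := by
        simp only [pow_add, pow_one]
    _ ≤ 2 ^ s := Nat.pow_le_pow_right (by norm_num) hexp

/-- NUM2 -/
theorem num_nodes {D n k0 k1 : ℕ} (hD : 1 ≤ D) (hDk : D ≤ 2 ^ k0) (hk : 2 ^ (k1 + 1) ≤ n) :
    (k1 + 1 - k0) * n ≤ 8 * D *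
      ∑ k ∈ Finset.Ico k0 (k1 + 1), (n / 2 ^ (k + 1)) * (2 ^ k / D) := by
  rw [Finset.mul_sum]
  have h := Finset.card_nsmul_le_sum (Finset.Ico k0 (k1 + 1))
    (fun k => 8 * D * ((n / 2 ^ (k + 1)) * (2 ^ k / D))) n (fun k hkI => by
      rw [Finset.mem_Ico] at hkI
      have h1 : D ≤ 2 ^ k := hDk.trans (Nat.pow_le_pow_right (by norm_num) hkI.1)
      have h2 : 2 ^ (k + 1) ≤ n := (Nat.pow_le_pow_right (by norm_num) (by omega)).trans hk
      have h3 : 1 ≤ 2 ^ k / D := (Nat.one_le_div_iff (by omega)).2 h1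
      have h4 : 1 ≤ n / 2 ^ (k + 1) := (Nat.one_le_div_iff (by positivity)).2 h2
      have h5 : 2 ^ k < D * (2 ^ k / D) + D := Nat.lt_mul_div_succ _ (by omega)
      have h6 : n < 2 ^ (k + 1) * (n / 2 ^ (k + 1)) + 2 ^ (k + 1) :=
        Nat.lt_mul_div_succ _ (by positivity)
      have h7 : 2 ^ (k + 1) = 2 * 2 ^ k := by rw [pow_succ]; ring
      generalize 2 ^ k / D = b at *
      generalize n / 2 ^ (k + 1) = a at *
      rw [h7] at h6
      have h8 : 2 ^ k ≤ 2 * (D * b) := by nlinarith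
      have h9 : n ≤ 4 * (2 ^ k * a) := by nlinarith
      calc n ≤ 4 * (2 ^ k * a) := h9
        _ ≤ 4 * (2 * (D * b) * a) := by gcongr
        _ = 8 * D * (a * b) := by ring)
  rw [Nat.card_Ico, smul_eq_mul] at h
  exact h

private theorem NUM3_log (l : ℕ) : Real.log ((l : ℝ) + 1) ≤ l * Real.log 2 / 2 + 1 := by
  have hl : (0 : ℝ) ≤ l := Nat.cast_nonneg l
  have h1 : Real.log (((l : ℝ) + 1) / 4) ≤ ((l : ℝ) + 1) / 4 - 1 :=
    Real.log_le_sub_one_of_pos (by positivity)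
  rw [Real.log_div (by positivity) (by norm_num)] at h1
  have h2 : Real.log 4 = 2 * Real.log 2 := by
    rw [show (4 : ℝ) = 2 ^ 2 by norm_num, Real.log_pow]
    norm_num
  have h3 := Real.log_two_gt_d9
  have h4 := Real.log_two_lt_d9
  nlinarith

/-- NUM3 -/
theorem num_final (C D : ℕ) : ∃ c : ℝ, 0 < c ∧ ∀ n L T : ℕ, 1 ≤ n → 1 ≤ L → L ≤ n → n ≤ T →
    (T ≤ n ^ 2 → ∀ k0 k1 : ℕ, 4 * L ≤ 2 ^ k0 → C * (Nat.log 2 n + 1) ≤ 2 ^ k0 → 2 ^ (k1 + 1) ≤ n →
      (k1 + 1 - k0) * n ≤ D * T) →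
    c * n * Real.log (n / L) ≤ T := by
  have hB : (4 : ℝ) ≤ 4 + Real.log ((C : ℝ) + 1) := by
    have : 0 ≤ Real.log ((C : ℝ) + 1) := Real.log_nonneg (by
      have : (0 : ℝ) ≤ C := Nat.cast_nonneg C
      linarith)
    linarith
  set B : ℝ := 4 + Real.log ((C : ℝ) + 1) with hBd
  have hD : (0 : ℝ) ≤ D := Nat.cast_nonneg D
  refine ⟨1 / (2 * (D + B)), by positivity, fun n L T hn hL hLn hnT h => ?_⟩
  have hn' : (1 : ℝ) ≤ n := by exact_mod_cast hn
  have hL' : (1 : ℝ) ≤ L := by exact_mod_cast hL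
  have hLn' : (L : ℝ) ≤ n := by exact_mod_cast hLn
  have hnT' : (n : ℝ) ≤ T := by exact_mod_cast hnT
  have hlog : Real.log ((n : ℝ) / L) = Real.log n - Real.log L :=
    Real.log_div (by positivity) (by positivity)
  have hlogL : 0 ≤ Real.log L := Real.log_nonneg hL'
  have hlogn : 0 ≤ Real.log ((n : ℝ) / L) := Real.log_nonneg ((one_le_div (by linarith)).2 hLn')
  have hpos : 0 < 2 * (D + B) := by linarith
  suffices hs : n * Real.log ((n : ℝ) / L) ≤ 2 * (D + B) * T by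
    rw [mul_assoc, one_div, inv_mul_le_iff₀ hpos]
    exact hs
  by_cases hT : T ≤ n ^ 2
  swap
  · push Not at hT
    have hT' : (n : ℝ) ^ 2 ≤ T := by exact_mod_cast hT.le
    have h1 : Real.log n ≤ n := (Real.log_le_sub_one_of_pos (by linarith)).trans (by linarith)
    have h2 : n * Real.log ((n : ℝ) / L) ≤ n * n := by
      refine mul_le_mul_of_nonneg_left ?_ (by linarith)
      rw [hlog]
      linarith
    have h3 : (T : ℝ) ≤ 2 * (D + B) * T := by nlinarith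
    nlinarith
  rcases Nat.lt_or_ge n 2 with h2n | h2n
  · have h1 : n = 1 := by omega
    have h2 : L = 1 := by omega
    rw [h1, h2]
    simp only [Nat.cast_one, div_one, Real.log_one, mul_zero]
    positivity
  set l := Nat.log 2 n with hl
  have hl1 : 1 ≤ l := (Nat.le_log_iff_pow_le (by norm_num) (by omega)).2 (by simpa using h2n)
  have hl2 : 2 ^ l ≤ n := Nat.pow_log_le_self 2 (by omega)
  have hl3 : n < 2 ^ (l + 1) := Nat.lt_pow_succ_log_self (by norm_num) n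
  set mx := max (4 * L) (C * (l + 1)) with hmx
  set k0 := Nat.clog 2 mx with hk0
  have hmx1 : 1 < mx := lt_of_lt_of_le (by omega) (le_max_left _ _)
  have hk01 : mx ≤ 2 ^ k0 := Nat.le_pow_clog (by norm_num) _
  have hk02 : 2 ^ (k0 - 1) < mx := Nat.pow_pred_clog_lt_self (by norm_num) hmx1
  have hk0pos : 1 ≤ k0 := Nat.clog_pos (by norm_num) hmx1
  have hk03 : 2 ^ k0 ≤ 2 * mx := by
    have : 2 ^ k0 = 2 * 2 ^ (k0 - 1) := by
      rw [← pow_succ']
      congr 1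
      omega
    omega
  have h1 := h hT k0 (l - 1) ((le_max_left _ _).trans hk01) ((le_max_right _ _).trans hk01) (by
    rw [Nat.sub_add_cancel hl1]
    exact hl2)
  rw [Nat.sub_add_cancel hl1] at h1
  have h2 : ((l : ℝ) - k0) * n ≤ D * T := by
    have h3 : (((l - k0 : ℕ) : ℝ)) * n ≤ D * T := by exact_mod_cast h1
    have h4 : (l : ℝ) - k0 ≤ ((l - k0 : ℕ) : ℝ) := by
      rw [sub_le_iff_le_add]
      have : l ≤ (l - k0) + k0 := by omega
      exact_mod_cast this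
    exact (mul_le_mul_of_nonneg_right h4 (by linarith)).trans h3
  have e1 := Real.log_two_gt_d9
  have e2 := Real.log_two_lt_d9
  have hln : Real.log n ≤ (l + 1) * Real.log 2 := by
    have h3 : Real.log n ≤ Real.log ((2 : ℝ) ^ (l + 1)) :=
      Real.log_le_log (by linarith) (by exact_mod_cast hl3.le)
    rw [Real.log_pow] at h3
    push_cast at h3
    exact h3
  have hk : k0 * Real.log 2 ≤ Real.log (2 * mx) := by
    have h3 : Real.log ((2 : ℝ) ^ k0) ≤ Real.log (2 * mx) :=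
      Real.log_le_log (by positivity) (by exact_mod_cast hk03)
    rw [Real.log_pow] at h3
    exact h3
  have key : Real.log ((n : ℝ) / L) / 2 - B ≤ ((l : ℝ) - k0) * Real.log 2 := by
    have hlC : 0 ≤ Real.log ((C : ℝ) + 1) := by linarith
    rcases le_total (C * (l + 1)) (4 * L) with hc | hc
    · have h3 : mx = 4 * L := max_eq_left hc
      have h4 : Real.log (2 * (mx : ℝ)) = 3 * Real.log 2 + Real.log L := by
        rw [h3]
        push_cast
        rw [show (2 : ℝ) * (4 * L) = 2 ^ 3 * L by ring, Real.log_mul (by positivity)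
          (by positivity), Real.log_pow]
        norm_num
      rw [h4] at hk
      rw [hlog] at hlogn ⊢
      nlinarith
    · have h3 : mx = C * (l + 1) := max_eq_right hc
      have hC : 1 ≤ C := by
        rcases Nat.eq_zero_or_pos C with h5 | h5
        · rw [h5] at hc
          omega
        · exact h5
      have hC' : (1 : ℝ) ≤ C := by exact_mod_cast hC
      have h4 : Real.log (2 * (mx : ℝ)) = Real.log 2 + Real.log C + Real.log ((l : ℝ) + 1) := by
        rw [h3]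
        push_cast
        rw [← mul_assoc, Real.log_mul (by positivity) (by positivity), Real.log_mul (by norm_num)
          (by positivity)]
      have h5 : Real.log C ≤ Real.log ((C : ℝ) + 1) := Real.log_le_log (by linarith) (by linarith)
      have h6 := NUM3_log l
      rw [h4] at hk
      rw [hlog] at hlogn ⊢
      nlinarith
  have hn0 : (0 : ℝ) ≤ n := by linarith
  have hT0 : (0 : ℝ) ≤ T := by linarith
  have h3 : (Real.log ((n : ℝ) / L) / 2 - B) * n ≤ D * T := by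
    have h4 : (Real.log ((n : ℝ) / L) / 2 - B) * n ≤ (((l : ℝ) - k0) * Real.log 2) * n :=
      mul_le_mul_of_nonneg_right key hn0
    have h5 : (((l : ℝ) - k0) * Real.log 2) * n = Real.log 2 * (((l : ℝ) - k0) * n) := by ring
    have h6 : Real.log 2 * (((l : ℝ) - k0) * n) ≤ Real.log 2 * (D * T) :=
      mul_le_mul_of_nonneg_left h2 (by linarith)
    have h7 : Real.log 2 * (D * T) ≤ 1 * ((D : ℝ) * T) :=
      mul_le_mul_of_nonneg_right (by linarith) (by positivity)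
    linarith
  have h8 : B * n ≤ B * T := mul_le_mul_of_nonneg_left hnT' (by linarith)
  nlinarith

end Vale.Agent.P338
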