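import Vale.Agent.P338.Avg
import Vale.Agent.P338.Num

/-! # P338: the time-lookahead trade-off -/

namespace Vale.Agent.P338

theorem computes_time {M : Machine} {w : Fin M.K → ℤ → Fin M.G} {n L T x y : ℕ}
    (h : Computes M w n L T x y) : n ≤ T := h.finish.trans (run_outs_len T)

theorem main_bound {M : Machine} {w : Fin M.K → ℤ → Fin M.G} {n L T : ℕ} (hn : 1 ≤ n)
    (hC : ∀ x < 2 ^ n, Computes M w n L T x (yy n)) (hT : T ≤ n ^ 2) {k0 k1 : ℕ}
    (hL : 4 * L ≤ 2 ^ k0)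
    (hk0 : (4 * (M.Q + 20 * M.K + 20) + 4 * (M.G * M.K + 1)) * (Nat.log 2 n + 1) ≤ 2 ^ k0)
    (hk1 : 2 ^ (k1 + 1) ≤ n) :
    (k1 + 1 - k0) * n ≤ (8 * (4 * (M.G * M.K + 1)) * (2 * M.K)) * T := by
  set D := 4 * (M.G * M.K + 1) with hD
  set A : Finset (ℕ × ℕ) := (Finset.Ico k0 (k1 + 1)).biUnion fun k =>
    (Finset.range (n / 2 ^ (k + 1))).image fun b => (k, b) with hA
  have hDk : D ≤ 2 ^ k0 := by
    refine le_trans ?_ hk0
    nlinarith [Nat.zero_le (Nat.log 2 n), Nat.zero_le (4 * (M.Q + 20 * M.K + 20)), Nat.zero_le D]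
  have h1 : ∀ q ∈ A, 2 ^ n * (2 ^ q.1 / D) ≤ 2 * ∑ x ∈ Finset.range (2 ^ n), ∑ i,
      (ov M w n x (yy n) i (q.2 * 2 ^ (q.1 + 1)) (2 ^ q.1)).card := by
    intro q hq
    rw [hA, Finset.mem_biUnion] at hq
    obtain ⟨k, hk, hq⟩ := hq
    rw [Finset.mem_image] at hq
    obtain ⟨b, hb, rfl⟩ := hq
    rw [Finset.mem_Ico] at hk
    rw [Finset.mem_range] at hb
    have hb' : (b + 1) * 2 ^ (k + 1) ≤ n := by
      have := Nat.div_mul_le_self n (2 ^ (k + 1))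
      calc (b + 1) * 2 ^ (k + 1) ≤ n / 2 ^ (k + 1) * 2 ^ (k + 1) := Nat.mul_le_mul_right _ hb
        _ ≤ n := this
    have hkk : 2 ^ k0 ≤ 2 ^ k := Nat.pow_le_pow_right (by norm_num) hk.1
    have hkk1 : 2 ^ (k + 1) ≤ n := (Nat.pow_le_pow_right (by norm_num) (by omega)).trans hk1
    have h2k : 2 ^ (k + 1) = 2 * 2 ^ k := by ring
    have has : b * 2 ^ (k + 1) + 2 * 2 ^ k ≤ n := by
      calc b * 2 ^ (k + 1) + 2 * 2 ^ k = (b + 1) * 2 ^ (k + 1) := by ring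
        _ ≤ n := hb'
    refine node_avg (m := 2 ^ k / D) has fun P hP W hW => ?_
    have h2 := count_small (m := 2 ^ k / D) hC (yy_zero hn) (yy_window hkk1) has (by positivity) hP hW
    refine (Nat.mul_le_mul_left 2 h2).trans (num_count hn hT le_rfl ?_ ?_ ?_)
    · refine (Nat.div_le_self _ _).trans ?_
      omega
    · exact hL.trans hkk
    · refine le_trans ?_ (hk0.trans hkk)
      exact Nat.mul_le_mul_right _ (Nat.le_add_right _ _)
  have h2 := avg_bound (fun x hx => (hC x hx).finish) A (fun k => 2 ^ k / D) h1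
  have h3 : ∑ q ∈ A, (2 ^ q.1 / D) =
      ∑ k ∈ Finset.Ico k0 (k1 + 1), (n / 2 ^ (k + 1)) * (2 ^ k / D) := by
    rw [hA, Finset.sum_biUnion]
    · refine Finset.sum_congr rfl fun k _ => ?_
      rw [Finset.sum_image (fun b _ c _ h => (Prod.ext_iff.mp h).2)]
      simp
    · intro k _ k' _ hkk'
      rw [Function.onFun, Finset.disjoint_left]
      intro q hq hq'
      rw [Finset.mem_image] at hq hq'
      obtain ⟨b, _, rfl⟩ := hq
      obtain ⟨b', _, h⟩ := hq'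
      exact hkk' (Prod.ext_iff.mp h).1.symm
  have h4 := num_nodes (D := D) (n := n) (k0 := k0) (k1 := k1) (by omega) hDk hk1
  rw [← h3] at h4
  refine h4.trans ?_
  calc 8 * D * ∑ q ∈ A, 2 ^ q.1 / D ≤ 8 * D * (2 * (M.K * T)) := Nat.mul_le_mul_left _ h2
    _ = 8 * D * (2 * M.K) * T := by ring

/-- the time-lookahead trade-off -/
theorem tradeoff (M : Machine) : ∃ c : ℝ, 0 < c ∧ ∀ (n L T : ℕ) (w : Fin M.K → ℤ → Fin M.G),
    1 ≤ n → 1 ≤ L → L ≤ n → (∀ x < 2 ^ n, Computes M w n L T x (yy n)) →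
    c * n * Real.log (n / L) ≤ T := by
  obtain ⟨c, hc, h⟩ := num_final (4 * (M.Q + 20 * M.K + 20) + 4 * (M.G * M.K + 1))
    (8 * (4 * (M.G * M.K + 1)) * (2 * M.K))
  refine ⟨c, hc, fun n L T w hn hL hLn hC => ?_⟩
  refine h n L T hn hL hLn (computes_time (hC 0 (by positivity))) fun hT k0 k1 h1 h2 h3 => ?_
  exact main_bound hn hC hT h1 h2 h3

end Vale.Agent.P338
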