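import Mathlib

/-!
# P338: on-line multiplication with lookahead on multitape Turing machines: the machine model

An on-line machine has `K` two-way infinite work tapes (indexed by `ℤ`), finitely many states and
tape symbols, a one-way read-only input tape whose cell number `j` holds the `j`-th binary digits
of `x` and of `y` (least significant digits first), and a one-way write-only output tape.
-/

namespace Vale.Agent.P338

/-- What a machine does in one step: new state, symbols written, head moves (`0` left, `1` stay,
`2` right), whether the input head advances, and the output bit (if any). -/
structure Act (K Q G : ℕ) where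
  state : Fin Q
  write : Fin K → Fin G
  move : Fin K → Fin 3
  adv : Bool
  out : Option Bool

/-- A deterministic on-line machine with `K` work tapes, `Q` states, `G` tape symbols. -/
structure Machine where
  K : ℕ
  Q : ℕ
  G : ℕ
  start : Fin Q
  δ : Fin Q → (Fin K → Fin G) → Bool × Bool → Act K Q G

/-- A configuration: state, contents of the work tapes, head positions, position of the input
head, bits output so far. -/
structure Cfg (M : Machine) where
  state : Fin M.Q
  tape : Fin M.K → ℤ → Fin M.G
  head : Fin M.K → ℤ
  inp : ℕ
  outs : List Bool

/-- The action taken in a configuration, for the inputs `x` and `y`. -/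
def Machine.act (M : Machine) (x y : ℕ) (c : Cfg M) : Act M.K M.Q M.G :=
  M.δ c.state (fun i => c.tape i (c.head i)) (x.testBit c.inp, y.testBit c.inp)

/-- One step. -/
def Machine.step (M : Machine) (x y : ℕ) (c : Cfg M) : Cfg M where
  state := (M.act x y c).state
  tape := fun i => Function.update (c.tape i) (c.head i) ((M.act x y c).write i)
  head := fun i => c.head i + (((M.act x y c).move i : ℕ) : ℤ) - 1
  inp := c.inp + (if (M.act x y c).adv then 1 else 0)
  outs := c.outs ++ (M.act x y c).out.toList

/-- The initial configuration; `w` is the initial content of the work tapes (advice). -/
def Machine.init (M : Machine) (w : Fin M.K → ℤ → Fin M.G) : Cfg M :=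
  ⟨M.start, w, fun _ => 0, 0, []⟩

/-- The configuration after `t` steps. -/
def Machine.run (M : Machine) (w : Fin M.K → ℤ → Fin M.G) (x y : ℕ) : ℕ → Cfg M
  | 0 => M.init w
  | t + 1 => M.step x y (M.run w x y t)

/-- With initial tape contents `w` and inputs `x`, `y`, the machine outputs the `n` low-order bits
of `x * y` (least significant first) within `T` steps, and with lookahead `L`: the product bit
number `j` has been output when the input head is on cell `j + L`. -/
structure Computes (M : Machine) (w : Fin M.K → ℤ → Fin M.G) (n L T x y : ℕ) : Prop where
  correct : ∀ t j, j < n → j < (M.run w x y t).outs.length →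
    (M.run w x y t).outs.getD j false = (x * y).testBit j
  online : ∀ t j, j < n → (M.run w x y t).inp = j + L → j < (M.run w x y t).outs.length
  finish : n ≤ (M.run w x y T).outs.length

end Vale.Agent.P338
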