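import Vale.Agent.P338.Defs

/-! # P338: basic facts on runs. Modules RUN1 (the first six) and RUN2 (`run_congr`, `run_inp_reach`,
`tape_untouched`).  All by induction on `t`, unfolding `Machine.run`, `Machine.step`. -/

namespace Vale.Agent.P338

variable {M : Machine} {w : Fin M.K → ℤ → Fin M.G} {x x' y : ℕ}

/- RUN1 -/
private theorem RUN1_inp (t : ℕ) : (M.run w x y (t + 1)).inp = (M.run w x y t).inp +
    (if (M.act x y (M.run w x y t)).adv then 1 else 0) := rfl

private theorem RUN1_outs (t : ℕ) : (M.run w x y (t + 1)).outs = (M.run w x y t).outs ++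
    (M.act x y (M.run w x y t)).out.toList := rfl

private theorem RUN1_head (t : ℕ) (i : Fin M.K) : (M.run w x y (t + 1)).head i =
    (M.run w x y t).head i + (((M.act x y (M.run w x y t)).move i : ℕ) : ℤ) - 1 := rfl

theorem run_inp_step (t : ℕ) : (M.run w x y (t + 1)).inp ≤ (M.run w x y t).inp + 1 := by
  rw [RUN1_inp]
  split_ifs <;> omega

theorem run_inp_mono {t t' : ℕ} (h : t ≤ t') : (M.run w x y t).inp ≤ (M.run w x y t').inp := by
  induction t', h using Nat.le_induction with
  | base => exact le_rfl
  | succ t' _ ih =>
    rw [RUN1_inp]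
    omega

theorem run_outs_prefix {t t' : ℕ} (h : t ≤ t') :
    (M.run w x y t).outs <+: (M.run w x y t').outs := by
  induction t', h using Nat.le_induction with
  | base => exact List.prefix_rfl
  | succ t' _ ih =>
    rw [RUN1_outs]
    exact ih.trans (List.prefix_append _ _)

theorem run_outs_len (t : ℕ) : (M.run w x y t).outs.length ≤ t := by
  induction t with
  | zero => exact le_rfl
  | succ t ih =>
    rw [RUN1_outs, List.length_append]
    have h1 : ((M.act x y (M.run w x y t)).out.toList).length ≤ 1 := by
      cases (M.act x y (M.run w x y t)).out <;> simp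
    omega

theorem run_head_step (t : ℕ) (i : Fin M.K) :
    |(M.run w x y (t + 1)).head i - (M.run w x y t).head i| ≤ 1 := by
  rw [RUN1_head, abs_le]
  have h1 := ((M.act x y (M.run w x y t)).move i).isLt
  omega

theorem run_head_le (t : ℕ) (i : Fin M.K) : |(M.run w x y t).head i| ≤ t := by
  induction t with
  | zero =>
    have h0 : (M.run w x y 0).head i = 0 := rfl
    rw [h0]
    simp
  | succ t ih =>
    have h1 := run_head_step (M := M) (w := w) (x := x) (y := y) t i
    rw [abs_le] at *
    push_cast
    omega

/- RUN2 -/
/-- the configuration at time `t` depends only on the digits read before -/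
theorem run_congr {p t : ℕ} (h : ∀ j < p, x.testBit j = x'.testBit j)
    (ht : ∀ t' < t, (M.run w x y t').inp < p) : M.run w x' y t = M.run w x y t := by
  induction t with
  | zero => rfl
  | succ t ih =>
    have h1 := ih fun t' h' => ht t' (h'.trans (Nat.lt_succ_self t))
    have h2 := h _ (ht t (Nat.lt_succ_self t))
    show M.step x' y (M.run w x' y t) = M.step x y (M.run w x y t)
    rw [h1]
    unfold Machine.step Machine.act
    rw [h2]

theorem run_inp_reach {t j : ℕ} (h : j ≤ (M.run w x y t).inp) :
    ∃ t' ≤ t, (M.run w x y t').inp = j := by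
  induction t with
  | zero =>
    have h0 : (M.run w x y 0).inp = 0 := rfl
    exact ⟨0, le_rfl, by omega⟩
  | succ t ih =>
    rcases le_or_gt j (M.run w x y t).inp with h1 | h1
    · obtain ⟨t', h2, h3⟩ := ih h1
      exact ⟨t', h2.trans (Nat.le_succ t), h3⟩
    · have h2 : (M.run w x y (t + 1)).inp = (M.run w x y t).inp +
          (if (M.act x y (M.run w x y t)).adv then 1 else 0) := rfl
      have h3 : (if (M.act x y (M.run w x y t)).adv then 1 else 0) ≤ 1 := by
        split_ifs <;> omega
      exact ⟨t + 1, le_rfl, by omega⟩

/-- a cell that is not scanned does not change -/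
theorem tape_untouched {t1 t2 : ℕ} (h : t1 ≤ t2) {i : Fin M.K} {c : ℤ}
    (hc : c ∉ vis M w x y i t1 t2) : (M.run w x y t2).tape i c = (M.run w x y t1).tape i c := by
  induction t2, h using Nat.le_induction with
  | base => rfl
  | succ t ht ih =>
    have h1 : c ∉ vis M w x y i t1 t := fun h => hc (by
      unfold vis at h ⊢
      refine Finset.image_subset_image ?_ h
      exact Finset.Ico_subset_Ico le_rfl (Nat.le_succ t))
    have h2 : c ≠ (M.run w x y t).head i := fun h => hc (by
      unfold vis
      refine Finset.mem_image.2 ⟨t, Finset.mem_Ico.2 ⟨ht, Nat.lt_succ_self t⟩, h.symm⟩)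
    have h3 : (M.run w x y (t + 1)).tape i c = Function.update ((M.run w x y t).tape i)
        ((M.run w x y t).head i) ((M.act x y (M.run w x y t)).write i) c := rfl
    rw [h3, Function.update_of_ne h2, ih h1]

end Vale.Agent.P338
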