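import Vale.Agent.P338.Run

/-! # P338: the stopping times `tau` (module TAU) -/

namespace Vale.Agent.P338

variable {M : Machine} {w : Fin M.K → ℤ → Fin M.G} {n T x x' y : ℕ}

theorem TAU_le_of {p t : ℕ}
    (h : p ≤ (M.run w x y t).inp ∨ n ≤ (M.run w x y t).outs.length) : tau M w n x y p ≤ t := by
  classical
  have hex : ∃ t, p ≤ (M.run w x y t).inp ∨ n ≤ (M.run w x y t).outs.length := ⟨t, h⟩
  unfold tau
  rw [dif_pos hex]
  exact Nat.find_min' hex h

theorem TAU_spec_of {p t : ℕ}
    (h : p ≤ (M.run w x y t).inp ∨ n ≤ (M.run w x y t).outs.length) :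
    p ≤ (M.run w x y (tau M w n x y p)).inp ∨
      n ≤ (M.run w x y (tau M w n x y p)).outs.length := by
  classical
  have hex : ∃ t, p ≤ (M.run w x y t).inp ∨ n ≤ (M.run w x y t).outs.length := ⟨t, h⟩
  have h1 : tau M w n x y p = Nat.find hex := by
    unfold tau
    rw [dif_pos hex]
  rw [h1]
  exact Nat.find_spec hex

theorem tau_le (hf : n ≤ (M.run w x y T).outs.length) (p : ℕ) : tau M w n x y p ≤ T :=
  TAU_le_of (Or.inr hf)

theorem tau_spec (hf : n ≤ (M.run w x y T).outs.length) (p : ℕ) :
    p ≤ (M.run w x y (tau M w n x y p)).inp ∨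
      n ≤ (M.run w x y (tau M w n x y p)).outs.length :=
  TAU_spec_of (Or.inr hf)

theorem tau_lt {p t : ℕ} (ht : t < tau M w n x y p) :
    (M.run w x y t).inp < p ∧ (M.run w x y t).outs.length < n := by
  have h : ¬ (p ≤ (M.run w x y t).inp ∨ n ≤ (M.run w x y t).outs.length) := fun h =>
    absurd (TAU_le_of h) (not_le.2 ht)
  rw [not_or, not_le, not_le] at h
  exact h

theorem tau_mono (hf : n ≤ (M.run w x y T).outs.length) {p q : ℕ} (h : p ≤ q) :
    tau M w n x y p ≤ tau M w n x y q := by
  refine TAU_le_of ?_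
  rcases tau_spec hf q with h1 | h1
  · exact Or.inl (h.trans h1)
  · exact Or.inr h1

/-- the stopping time depends only on the digits below `p` -/
theorem tau_congr (hf : n ≤ (M.run w x y T).outs.length) {p : ℕ}
    (h : ∀ j < p, x.testBit j = x'.testBit j) : tau M w n x' y p = tau M w n x y p := by
  have hrun : ∀ t ≤ tau M w n x y p, M.run w x' y t = M.run w x y t := fun t ht =>
    run_congr h fun t' ht' => (tau_lt (lt_of_lt_of_le ht' ht)).1
  refine le_antisymm (TAU_le_of ?_) ?_
  · rw [hrun _ le_rfl]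
    exact tau_spec hf p
  · by_contra hlt
    rw [not_le] at hlt
    have hP : p ≤ (M.run w x' y (tau M w n x y p)).inp ∨
        n ≤ (M.run w x' y (tau M w n x y p)).outs.length := by
      rw [hrun _ le_rfl]
      exact tau_spec hf p
    have h1 := TAU_spec_of hP
    rw [hrun _ hlt.le] at h1
    have h2 := tau_lt hlt
    rcases h1 with h1 | h1
    · exact absurd h2.1 (not_lt.2 h1)
    · exact absurd h2.2 (not_lt.2 h1)

/-- at the time `tau p` the input head is on cell `p`, unless all outputs are done -/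
theorem tau_inp (hf : n ≤ (M.run w x y T).outs.length) {p : ℕ}
    (h : (M.run w x y (tau M w n x y p)).outs.length < n) :
    (M.run w x y (tau M w n x y p)).inp = p := by
  have h1 : p ≤ (M.run w x y (tau M w n x y p)).inp := by
    rcases tau_spec hf p with h1 | h1
    · exact h1
    · exact absurd h (not_lt.2 h1)
  refine le_antisymm ?_ h1
  rcases Nat.eq_zero_or_pos (tau M w n x y p) with h0 | hpos
  · rw [h0]
    exact Nat.zero_le _
  · obtain ⟨s, hs⟩ : ∃ s, tau M w n x y p = s + 1 := ⟨_, (Nat.succ_pred_eq_of_pos hpos).symm⟩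
    have h2 := (tau_lt (n := n) (p := p) (M := M) (w := w) (x := x) (y := y) (t := s)
      (by omega)).1
    rw [hs]
    have h3 := run_inp_step (M := M) (w := w) (x := x) (y := y) s
    omega

end Vale.Agent.P338
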